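import Vale.Agent.P004Z.W.Mp

/-!
# P004Z, block G1: the theta witness and the Weil representation
-/

set_option autoImplicit false
set_option linter.all false

open UpperHalfPlane hiding I
open Complex Matrix MeasureTheory
open scoped MatrixGroups Real ComplexConjugate

noncomputable section

namespace Vale.Agent.P004Z.W

/-- uniqueness of Fourier coefficients -/
theorem four_uniq {a : ℤ → ℂ} (h : ∀ x : ℝ, HasSum (fun n => a n * ee (n * x)) 0) (m : ℤ) :
    a m = 0 := by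
  have h0 : Summable fun n => ‖a n‖ := by simpa using (h 0).summable.norm
  have c : ∀ n : ℤ, Continuous fun x : ℝ => a n * ee ((n - m : ℤ) * x) := fun n => by
    unfold ee
    fun_prop
  have h1 := hasSum_integral_of_summable_integral_norm (μ := volume.restrict (Set.Ioc (0 : ℝ) 1))
    (F := fun n (x : ℝ) => a n * ee ((n - m : ℤ) * x))
    (fun n => (c n).integrableOn_Ioc) (by simpa [norm_ee] using h0)
  have h2 : ∀ x : ℝ, ∑' n, a n * ee ((n - m : ℤ) * x) = 0 := fun x => by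
    have := ((h x).mul_right (ee (-m * x))).tsum_eq
    rw [zero_mul] at this
    rw [← this]
    refine tsum_congr fun n => ?_
    rw [mul_assoc, ← ee_add]
    congr 2
    push_cast
    ring
  simp only [h2, integral_zero] at h1
  refine (hasSum_single m fun n hn => ?_).unique h1 |>.symm.trans ?_ |>.symm
  · have k : (2 * π * I * (n - m : ℤ) : ℂ) ≠ 0 :=
      mul_ne_zero two_pi_I_ne_zero (Int.cast_ne_zero.2 (sub_ne_zero.2 hn))
    have := ee_int (n - m)
    rw [integral_const_mul, ← intervalIntegral.integral_of_le zero_le_one]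
    simp only [ee, ← mul_assoc] at this ⊢
    rw [integral_exp_mul_complex k, ofReal_one, mul_one, this]
    simp
  · simp

theorem hs_cg {ι : Type} {f g : ι → ℂ} {a : ℂ} (h : HasSum f a) (e : ∀ i, g i = f i) :
    HasSum g a := (funext e : g = f) ▸ h

theorem vm0 (v : Fin 2 → ℝ) (g : SL(2, ℝ)) :
    (v ᵥ* (g⁻¹ : SL(2, ℝ)) : Fin 2 → ℝ) 0 = v 0 * g 1 1 - v 1 * g 1 0 := by
  rw [vecMul, dotProduct, Fin.sum_univ_two, (inv_e g).1, (inv_e g).2.2.1]
  ring

theorem vm1 (v : Fin 2 → ℝ) (g : SL(2, ℝ)) :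
    (v ᵥ* (g⁻¹ : SL(2, ℝ)) : Fin 2 → ℝ) 1 = v 1 * g 0 0 - v 0 * g 0 1 := by
  rw [vecMul, dotProduct, Fin.sum_univ_two, (inv_e g).2.1, (inv_e g).2.2.2]
  ring

variable (m : ℕ) [NeZero m]

/-- the terms of the theta series -/
def tt (y : ℤ) (v : Fin 2 → ℝ) (τ : ℂ) : ℂ :=
  ee ((y + 2 * m * v 0) ^ 2 * τ / (4 * m) + (y + m * v 0) * v 1)

/-- the theta vector of index `m` with characteristic `v` -/
def th (v : Fin 2 → ℝ) (τ : ℍ) (r : AA m) : ℂ := ∑' y : ℤ, if (y : AA m) = r then tt m y v τ else 0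

variable {m}

theorem sum_tt (v : Fin 2 → ℝ) (τ : ℍ) : Summable fun y : ℤ => tt m y v τ := by
  have h0 : (0 : ℝ) < m := Nat.cast_pos.2 (NeZero.pos m)
  have h1 : 0 < ((τ : ℂ) / (2 * m : ℝ)).im := by
    rw [div_ofReal_im]
    exact div_pos τ.im_pos (by positivity)
  refine (((summable_jacobiTheta₂_term_iff (v 0 * τ + v 1) _).2 h1).mul_left
    (ee (m * v 0 ^ 2 * τ + m * v 0 * v 1))).congr fun y => ?_
  have := N_ne (N := m)
  rw [tt, ee, ee, jacobiTheta₂_term, ← exp_add]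
  congr 1
  push_cast
  field_simp
  ring

theorem hasSum_th (v : Fin 2 → ℝ) (τ : ℍ) (r : AA m) :
    HasSum (fun y : ℤ => if (y : AA m) = r then tt m y v τ else 0) (th m v τ r) :=
  ((sum_tt v τ).norm.of_norm_bounded fun y => by split_ifs; exacts [le_rfl, by simp]).hasSum

theorem hasSum_dot (φ : AA m → ℂ) (v : Fin 2 → ℝ) (τ : ℍ) :
    HasSum (fun y : ℤ => φ y * tt m y v τ) (φ ⬝ᵥ th m v τ) := by
  exact hs_cg (hasSum_sum fun r (_ : r ∈ Finset.univ) => (hasSum_th v τ r).mul_left (φ r))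
    fun y => by simp

theorem th_inj {φ : AA m → ℂ} (h : ∀ v τ, φ ⬝ᵥ th m v τ = 0) : φ = 0 := funext fun r => by
  obtain ⟨y, rfl⟩ := ZMod.intCast_surjective r
  refine (mul_eq_zero.1 (four_uniq (a := fun y : ℤ => φ y * ee (y ^ 2 * I / (4 * m)))
    (fun x => ?_) y)).resolve_right (ee_ne _)
  have := hasSum_dot φ ![0, x] UpperHalfPlane.I
  rw [h] at this
  simpa [tt, ee_add, mul_assoc] using this

variable {A B : Type} [Fintype A] [Fintype B]

/-- a constant matrix -/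
def Mv (M : Matrix B A ℂ) (Θ : (Fin 2 → ℝ) → ℍ → A → ℂ) : (Fin 2 → ℝ) → ℍ → B → ℂ :=
  fun v => mv M (Θ v)

theorem sw_Mv (x : Mp) (M : Matrix B A ℂ) (Θ : (Fin 2 → ℝ) → ℍ → A → ℂ) :
    sw x (Mv M Θ) = Mv M (sw x Θ) := funext fun _ => sl_mv _ _ _ _

theorem Mv_Mv {C : Type} (M : Matrix C B ℂ) (M' : Matrix B A ℂ)
    (Θ : (Fin 2 → ℝ) → ℍ → A → ℂ) : Mv M (Mv M' Θ) = Mv (M * M') Θ := funext fun _ => mv_mv _ _ _

theorem Mv_one [DecidableEq A] (Θ : (Fin 2 → ℝ) → ℍ → A → ℂ) : Mv (1 : Matrix A A ℂ) Θ = Θ :=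
  funext fun _ => mv_one _

theorem Mv_inj {Y Y' : Matrix B (AA m) ℂ} (h : Mv Y (th m) = Mv Y' (th m)) : Y = Y' :=
  funext fun b => sub_eq_zero.1 (th_inj fun v τ => by
    rw [sub_dotProduct, sub_eq_zero]
    exact congrFun (congrFun (congrFun h v) τ) b)

theorem tt_nn (t : ℝ) (y : ℤ) (v : Fin 2 → ℝ) (τ : ℍ) :
    tt m y (v ᵥ* ((nn t).g⁻¹ : SL(2, ℝ))) ((nn t).g • τ : ℍ) =
      ee (t * y ^ 2 / (4 * m)) * tt m y v τ := by
  have := N_ne (N := m)
  rw [tt, tt, vm0, vm1, nn_sm, ← ee_add]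
  congr 1
  simp
  field_simp
  ring

theorem th_nn (z : ℤ) : sw (nn z) (th m) = Mv (diagonal (eQ m z)) (th m) := by
  funext v τ r
  simp only [sw, sl, Mv, mv, mulVec_diagonal, nn_j, _root_.one_zpow, one_smul]
  refine (hasSum_th _ _ r).unique ?_
  refine hs_cg ((hasSum_th v τ r).mul_left (eQ m z r)) fun y => ?_
  split_ifs with h
  · rw [tt_nn, ← h, eQ_int, ofReal_intCast]
  · simp

theorem th_S0 (v : Fin 2 → ℝ) (τ : ℍ) (r : AA m) :
    th m (v ᵥ* (ss.g⁻¹ : SL(2, ℝ))) (ModularGroup.S • τ) r =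
      ((1 + I) * √m)⁻¹ * rt τ ^ (1 : ℤ) * ∑ s, eB m 1 r s * th m v τ s := by
  have m0 := N_ne (N := m)
  have t0 := τ.ne_zero
  have h0 : (0 : ℝ) < m := Nat.cast_pos.2 (NeZero.pos m)
  obtain ⟨x, rfl⟩ := ZMod.intCast_surjective r
  have i1 : 0 < ((2 * m : ℝ) * (ModularGroup.S • τ : ℍ) : ℂ).im := by
    rw [im_ofReal_mul]
    exact mul_pos (by positivity) (ModularGroup.S • τ).im_pos
  have i2 : 0 < (-1 / ((2 * m : ℝ) * (ModularGroup.S • τ : ℍ)) : ℂ).im := by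
    rw [show (-1 / ((2 * m : ℝ) * (ModularGroup.S • τ : ℍ)) : ℂ) = τ / (2 * m : ℝ) by
      rw [coe_S]; push_cast; field_simp, div_ofReal_im]
    exact div_pos τ.im_pos (by positivity)
  obtain ⟨z, hz⟩ : ∃ z : ℂ, z = (x - 2 * m * v 1) * -(τ : ℂ)⁻¹ + 2 * m * v 0 := ⟨_, rfl⟩
  have h1 := (hasSum_jacobiTheta₂_term z i1).mul_left
    (ee ((x - 2 * m * v 1) ^ 2 * -(τ : ℂ)⁻¹ / (4 * m) + (x - m * v 1) * v 0))
  have inj : Function.Injective fun n : ℤ => x + 2 * m * n := fun a b h => by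
    simpa [NeZero.ne m] using h
  have h2 := (inj.hasSum_iff (fun y hy => if_neg fun e => hy (by
    obtain ⟨c, hc⟩ := (ZMod.intCast_eq_intCast_iff_dvd_sub x y (2 * m)).1 e.symm
    exact ⟨c, by push_cast at hc; linear_combination -hc⟩))).2
    (hasSum_th (v ᵥ* (ss.g⁻¹ : SL(2, ℝ))) (ModularGroup.S • τ) (x : AA m))
  have h3 := (Equiv.neg ℤ).hasSum_iff.2 (hasSum_dot (eB m 1 x) v τ)
  have h4 := (hasSum_jacobiTheta₂_term (z / ((2 * m : ℝ) * (ModularGroup.S • τ : ℍ))) i2).mul_left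
    (ee (m * v 0 ^ 2 * τ + m * v 0 * v 1))
  have e1 := h2.unique (hs_cg h1 fun n => by
    have : ((x + 2 * m * n : ℤ) : AA m) = x := by
      push_cast
      rw [show (2 * m : AA m) = 0 by exact_mod_cast ZMod.natCast_self (2 * m)]
      ring
    rw [Function.comp, if_pos this, tt, vm0, vm1, jacobiTheta₂_term, ee, ee, ← exp_add, coe_S, hz]
    congr 1
    simp
    field_simp
    ring)
  have e2 := h3.unique (hs_cg h4 fun n => by
    rw [Function.comp, Equiv.neg_apply, eB_int, tt, jacobiTheta₂_term, ee, ee, ee, ← exp_add,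
      ← exp_add, coe_S, hz]
    congr 1
    push_cast
    field_simp
    ring)
  have e3 : (-I * ((2 * m : ℝ) * (ModularGroup.S • τ : ℍ)) : ℂ) ^ (1 / 2 : ℂ) =
      (1 + I) * √m / rt τ := by
    have p := rt_pos τ
    refine sq_eq ?_ ?_ ?_
    · rw [one_div, cpow_ofNat_inv_pow, div_pow, rt_sq, mul_pow, ← ofReal_pow, Real.sq_sqrt h0.le,
        coe_S]
      push_cast
      field_simp
      linear_combination (-1) * I_sq
    · rw [one_div, cpow_inv_two_re]
      exact Real.sqrt_nonneg _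
    · have := normSq_pos.2 (rt_ne τ)
      have := Real.sqrt_pos.2 h0
      rw [div_re]
      simp only [mul_re, mul_im, add_re, add_im, one_re, one_im, Complex.I_re, Complex.I_im, ofReal_re, ofReal_im]
      have := p.1
      have := p.2
      simp only [add_zero, zero_add, mul_zero, sub_zero, one_mul]
      positivity
  rw [e1, jacobiTheta₂_functional_equation, e3, show ∑ s, eB m 1 x s * th m v τ s = _ from e2,
    zpow_one, one_div_div, div_eq_inv_mul (rt τ), mul_assoc (_ * rt τ), mul_left_comm,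
    ← mul_assoc (ee _)]
  congr 2
  rw [ee, ee, ← exp_add, coe_S, hz]
  congr 1
  push_cast
  field_simp
  ring

theorem md0 : (∀ τ r, th m 0 (ModularGroup.T • τ) r = eQ m 1 r * th m 0 τ r) ∧
    ∀ τ r, th m 0 (ModularGroup.S • τ) r =
      ((1 + I) * √m)⁻¹ * rt τ ^ (1 : ℤ) * ∑ s, eB m 1 r s * th m 0 τ s := by
  refine ⟨fun τ r => ?_, fun τ r => by simpa only [zero_vecMul] using th_S0 0 τ r⟩
  have := congrFun (congrFun (congrFun (th_nn (m := m) 1) 0) τ) r
  simpa only [sw, sl, Mv, mv, mulVec_diagonal, nn_j, _root_.one_zpow, one_smul, zero_vecMul,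
    Int.cast_one, nn_one, zr_sm] using this

/-- the theta vector is a form of weight `1 / 2` -/
theorem md_th : Md m 1 1 (th m 0) := Md.of_const md0.1 md0.2

theorem th_ne : th m 0 UpperHalfPlane.I 0 ≠ 0 := fun e => by
  have := le_hasSum (hasSum_re (hasSum_th (m := m) 0 UpperHalfPlane.I 0)) 0 fun y _ => by
    split_ifs
    · rw [tt, ee, show 2 * π * I * _ = ((-(2 * π * y ^ 2 / (4 * m)) : ℝ) : ℂ) by
        simp; linear_combination 2 * π * y ^ 2 / (4 * m) * I_mul_I, exp_ofReal_re]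
      exact (Real.exp_pos _).le
    · simp
  rw [e] at this
  norm_num [tt] at this

theorem gs_one : gs m 1 = (1 + I) * √m :=
  (eq_inv_of_mul_eq_one_right ((mul_left_eq_self₀.1 (rigid md0.1 md0.2 _ 0)).resolve_right
    th_ne)).trans (inv_inv _)

variable (m) in
/-- the matrix of the inversion -/
def mS (u : ℤ) : Matrix (AA m) (AA m) ℂ := (gs m u)⁻¹ • of (eB m u)

theorem th_ss : sw ss (th m) = Mv (mS m 1) (th m) := by
  funext v τ r
  have := rt_ne τ
  simp only [sw, sl, Mv, mv, mS, smul_mulVec, Pi.smul_apply, smul_eq_mul]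
  rw [show ss.g • τ = ModularGroup.S • τ from zr_sm _ _, th_S0, gs_one, show ss.j τ = rt τ from rfl,
    ← mul_assoc, mul_left_comm (rt τ ^ _), ← zpow_add₀ this]
  simp [mulVec, dotProduct]

theorem mS_un {u : ℤ} (hu : IsCoprime u (2 * m)) : (mS m u)ᴴ * mS m u = 1 := by
  ext r s
  have h := gs_mul hu
  have h1 := gs_ne hu
  have h2 := gs_ne hu.neg_left
  simp only [mS, mul_apply, conjTranspose_apply, Matrix.smul_apply, of_apply, smul_eq_mul, star_def,
    map_mul, map_inv₀, conj_gs, conj_eB, mul_mul_mul_comm _ _ (gs m u)⁻¹, ← Finset.mul_sum,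
    ← eB_neg, ← eB_add, eB_comm _ (-r + s), sum_eB hu, neg_add_eq_zero, one_apply]
  split_ifs
  · rw [← h]
    field_simp
  · simp

theorem mT_un (u : ℤ) : (diagonal (eQ m u))ᴴ * diagonal (eQ m u) = 1 := by
  rw [diagonal_conjTranspose, diagonal_mul_diagonal, ← diagonal_one]
  congr 1
  funext r
  rw [Pi.star_apply, star_def, conj_eQ, mul_comm, eQ_mul]

variable (m) in
/-- the Weil representation -/
def Rm (x : Mp) : Matrix (AA m) (AA m) ℂ := Classical.epsilon fun R => sw x (th m) = Mv R (th m)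

theorem gd {x : Mp} (hx : x ∈ Gm) : sw x (th m) = Mv (Rm m x) (th m) := by
  obtain ⟨R, -, h, -⟩ := Gm_ind (P := fun x => ∃ R R' : Matrix (AA m) (AA m) ℂ,
      sw x (th m) = Mv R (th m) ∧ R' * R = 1)
    ⟨_, _, th_ss, mS_un isCoprime_one_left⟩ ⟨_, _, by simpa using th_nn (m := m) 1, mT_un 1⟩
    (fun a b ⟨R, R', h, e⟩ ⟨Q, Q', h', e'⟩ => ⟨R * Q, Q' * R', by
      rw [sw_mul, h, sw_Mv, h', Mv_Mv], by rw [mul_assoc, ← mul_assoc R', e, one_mul, e']⟩)
    (fun a ⟨R, R', h, e⟩ => ⟨R', R, by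
      rw [← Mv_one (sw a⁻¹ _), ← e, ← Mv_Mv, ← sw_Mv _ R, ← h, ← sw_mul, mul_inv_cancel, sw_one],
      mul_eq_one_comm.1 e⟩) hx
  exact Classical.epsilon_spec (p := fun R => sw x (th m) = Mv R (th m)) ⟨R, h⟩

theorem Rm_mul {x y : Mp} (hx : x ∈ Gm) (hy : y ∈ Gm) : Rm m (x * y) = Rm m x * Rm m y :=
  Mv_inj (by rw [← gd (mul_mem hx hy), sw_mul, gd hx, sw_Mv, gd hy, Mv_Mv])

theorem Rm_one : Rm m 1 = 1 := Mv_inj (by rw [← gd (one_mem _), sw_one, Mv_one])

theorem Rm_nn (z : ℤ) : Rm m (nn z) = diagonal (eQ m z) :=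
  Mv_inj (by rw [← gd (nn_mem z), th_nn])

theorem Rm_ss : Rm m ss = mS m 1 := Mv_inj (by rw [← gd ss_mem, th_ss])

theorem Gm_ind' {P : Mp → Prop} (hS : P ss) (hT : P (nn 1))
    (hm : ∀ a ∈ Gm, ∀ b ∈ Gm, P a → P b → P (a * b)) (hi : ∀ a ∈ Gm, P a → P a⁻¹) {x : Mp}
    (hx : x ∈ Gm) : P x :=
  (Gm_ind (P := fun x => x ∈ Gm ∧ P x) ⟨ss_mem, hS⟩ ⟨by simpa using nn_mem 1, hT⟩
    (fun a b h h' => ⟨mul_mem h.1 h'.1, hm a h.1 b h'.1 h.2 h'.2⟩)
    (fun a h => ⟨inv_mem h.1, hi a h.1 h.2⟩) hx).2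

/-! ### Galois conjugates -/

variable (m) in
/-- `σ` raises the roots of unity of order `4 m` to the power `u` -/
def Sg (u : ℤ) (σ : ℂ →+* ℂ) : Prop := ∀ a : ℤ, σ (ee (a / (4 * m))) = ee (u * a / (4 * m))

variable (m) in
/-- the conjugate representation -/
def Rs (σ : ℂ →+* ℂ) (x : Mp) : Matrix (AA m) (AA m) ℂ := (Rm m x).map σ

variable {u : ℤ} {σ : ℂ →+* ℂ}

theorem Sg.eQ (h : Sg m u σ) (z : ℤ) (r : AA m) : σ (eQ m z r) = eQ m (u * z) r := by
  have := h (z * r.val ^ 2)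
  push_cast at this
  rw [W.eQ, W.eQ, this]
  push_cast
  rw [mul_assoc]

theorem Sg.eB (h : Sg m u σ) (r s : AA m) : σ (eB m 1 r s) = eB m u r s := by
  have := h (-(2 * r.val * s.val))
  have m0 := N_ne (N := m)
  rw [W.eB, W.eB]
  convert this using 2 <;> push_cast
  · congr 1
    field_simp
    ring
  · field_simp
    ring

theorem Sg.gs (h : Sg m u σ) : σ (gs m 1) = gs m u := by
  simp only [W.gs, map_sum, h.eQ, mul_one]

theorem Rs_mul {x y : Mp} (hx : x ∈ Gm) (hy : y ∈ Gm) : Rs m σ (x * y) = Rs m σ x * Rs m σ y := by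
  rw [Rs, Rm_mul hx hy, Matrix.map_mul, Rs, Rs]

theorem Rs_one : Rs m σ 1 = 1 := by rw [Rs, Rm_one, Matrix.map_one _ σ.map_zero σ.map_one]

theorem Rs_inv {x : Mp} (hx : x ∈ Gm) : Rs m σ x⁻¹ * Rs m σ x = 1 := by
  rw [← Rs_mul (inv_mem hx) hx, inv_mul_cancel, Rs_one]

theorem Rs_nn (h : Sg m u σ) (z : ℤ) : Rs m σ (nn z) = diagonal (eQ m (u * z)) := by
  rw [Rs, Rm_nn, diagonal_map σ.map_zero]
  simp only [h.eQ]

theorem Rs_ss (h : Sg m u σ) : Rs m σ ss = mS m u := by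
  ext r s
  simp only [Rs, Rm_ss, mS, map_apply, Matrix.smul_apply, of_apply, smul_eq_mul, map_mul, map_inv₀, h.gs,
    h.eB]

theorem Rs_un (hu : IsCoprime u (2 * m)) (h : Sg m u σ) {x : Mp} (hx : x ∈ Gm) :
    Rs m σ x⁻¹ = (Rs m σ x)ᴴ := by
  have k : ∀ x ∈ Gm, (Rs m σ x)ᴴ * Rs m σ x = 1 → Rs m σ x⁻¹ = (Rs m σ x)ᴴ := fun x hx e =>
    left_inv_eq_right_inv (Rs_inv hx) (mul_eq_one_comm.1 e)
  refine Gm_ind' (P := fun x => Rs m σ x⁻¹ = (Rs m σ x)ᴴ) (k _ ss_mem ?_)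
    (k _ (by simpa using nn_mem 1) ?_) (fun a ha b hb e e' => ?_) (fun a ha e => ?_) hx
  · rw [Rs_ss h, mS_un hu]
  · have := Rs_nn h 1
    rw [Int.cast_one] at this
    rw [this, mT_un]
  · rw [_root_.mul_inv_rev, Rs_mul (inv_mem hb) (inv_mem ha), Rs_mul ha hb, e, e', conjTranspose_mul]
  · rw [inv_inv, e, conjTranspose_conjTranspose]

/-- **modularity under the whole group** -/
theorem Md.sl (hu : IsCoprime u (2 * m)) (h : Sg m u σ) {k : ℤ} {F : ℍ → AA m → ℂ}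
    (hF : Md m u k F) {x : Mp} (hx : x ∈ Gm) : W.sl k x F = mv (Rs m σ x) F := by
  refine Gm_ind' (P := fun x => W.sl k x F = mv (Rs m σ x) F) ?_ ?_ (fun a ha b hb e e' => ?_)
    (fun a ha e => ?_) hx
  · funext τ r
    simp only [W.sl, mv, Rs_ss h, mS, smul_mulVec, Pi.smul_apply, smul_eq_mul]
    rw [show ss.g • τ = ModularGroup.S • τ from zr_sm _ _, hF.S' hu, show ss.j τ = rt τ from rfl,
      ← mul_assoc, mul_left_comm (rt τ ^ _), ← zpow_add₀ (rt_ne τ)]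
    simp [mulVec, dotProduct]
  · have := Rs_nn h 1
    rw [Int.cast_one, mul_one] at this
    funext τ r
    simp only [W.sl, mv, this, mulVec_diagonal, nn_j, _root_.one_zpow, one_smul, nn_one, zr_sm, hF.T]
  · rw [sl_mul, e, sl_mv, e', mv_mv, Rs_mul ha hb]
  · rw [← mv_one (W.sl k a⁻¹ F), ← Rs_inv ha, ← mv_mv, ← sl_mv, ← e, ← sl_mul, mul_inv_cancel,
      sl_one]

theorem md_of (hu : IsCoprime u (2 * m)) (h : Sg m u σ) {k : ℤ} {F : ℍ → AA m → ℂ}
    (hF : ∀ x ∈ Gm, sl k x F = mv (Rs m σ x) F) : Md m u k F := by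
  refine ⟨fun τ r => ?_, fun τ r => ?_⟩
  · have := congrFun (congrFun (hF _ (nn_mem 1)) τ) r
    rw [Rs_nn h] at this
    simpa only [W.sl, mv, mulVec_diagonal, nn_j, _root_.one_zpow, one_smul, Int.cast_one,
      nn_one, zr_sm, mul_one] using this
  · have := congrFun (congrFun (hF _ ss_mem) τ) r
    simp only [W.sl, mv, Rs_ss h, mS, smul_mulVec, Pi.smul_apply, smul_eq_mul] at this
    rw [show ss.g • τ = ModularGroup.S • τ from zr_sm _ _, show ss.j τ = rt τ from rfl,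
      _root_.zpow_neg, inv_mul_eq_iff_eq_mul₀ (zpow_ne_zero _ (rt_ne τ))] at this
    rw [this, mul_left_comm, mul_inv_cancel_left₀ (gs_ne hu)]
    rfl

/-- automorphisms of `ℂ` with a given action on roots of unity -/
theorem ex_sig {M : ℕ} (hM : M ≠ 0) {a : ℕ} (ha : a.Coprime M) :
    ∃ σ : ℂ →+* ℂ, ∀ b : ℤ, σ (ee (b / M)) = ee (a * b / M) := by
  have z : IsPrimitiveRoot (ee (1 / M)) M := by
    simpa [ee, div_eq_mul_inv] using isPrimitiveRoot_exp M hM
  have i : IsIntegral ℚ (ee (1 / M)) := (z.isIntegral hM.bot_lt).tower_top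
  let pb := IntermediateField.adjoin.powerBasis i
  have h1 : Polynomial.aeval (ee (1 / M) ^ a) (minpoly ℚ pb.gen) = 0 := by
    rw [show minpoly ℚ pb.gen = _ from IntermediateField.minpoly_gen ℚ (ee (1 / M)),
      ← Polynomial.cyclotomic_eq_minpoly_rat z hM.bot_lt, Polynomial.aeval_def,
      Polynomial.eval₂_eq_eval_map, Polynomial.map_cyclotomic]
    exact (z.pow_of_coprime a ha).isRoot_cyclotomic hM.bot_lt
  let K := IntermediateField.adjoin ℚ {ee (1 / M)}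
  have hk : Cardinal.mk K ≤ Cardinal.aleph0 := by
    have := IntermediateField.adjoin.finiteDimensional i
    exact (Algebra.IsAlgebraic.cardinalMk_le_max ℚ K).trans (by simp)
  have H : ∀ (C C' : Type) [Field C] [Field C'] [Algebra K C] [Algebra K C'] [IsAlgClosed C]
      [IsAlgClosed C'], Cardinal.aleph0 < Cardinal.mk C → Cardinal.mk C = Cardinal.mk C' →
      ∃ τ : C ≃+* C', ∀ a, τ (algebraMap K C a) = algebraMap K C' a := by
    intro C C' _ _ _ _ _ _ a b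
    obtain ⟨ι, v, hv⟩ := exists_isTranscendenceBasis' K C
    obtain ⟨κ, w, hw⟩ := exists_isTranscendenceBasis' K C'
    obtain ⟨e⟩ := Cardinal.eq.1
      ((IsAlgClosed.cardinal_eq_cardinal_transcendence_basis_of_aleph0_lt' v hv hk a).symm.trans
        (b.trans (IsAlgClosed.cardinal_eq_cardinal_transcendence_basis_of_aleph0_lt' w hw hk
          (b ▸ a))))
    have := IsAlgClosed.isAlgClosure_of_transcendence_basis v hv
    have := IsAlgClosed.isAlgClosure_of_transcendence_basis w hw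
    let E := (hv.1.aevalEquiv.symm.trans (MvPolynomial.renameEquiv K e)).trans hw.1.aevalEquiv
    refine ⟨IsAlgClosure.equivOfEquiv C C' E.toRingEquiv, fun a => ?_⟩
    exact (IsAlgClosure.equivOfEquiv_algebraMap C C' E.toRingEquiv (algebraMap K _ a)).trans
      (congrArg Subtype.val (E.commutes a))
  obtain ⟨τ, hτ⟩ := @H ℂ ℂ _ _ _ (pb.lift _ h1).toRingHom.toAlgebra _ _
    (Cardinal.mk_complex ▸ Cardinal.aleph0_lt_continuum) rfl
  have h2 : τ (ee (1 / M)) = ee (1 / M) ^ a := (hτ pb.gen).trans (pb.lift_gen _ h1)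
  refine ⟨τ, fun b => ?_⟩
  rw [div_eq_mul_one_div, ee_zpow, map_zpow₀, RingHom.coe_coe, h2, ← ee_pow, ← ee_zpow]
  congr 1
  ring

end Vale.Agent.P004Z.W
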