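import Vale.Agent.P004Z.W.Defs

/-!
# P004Z, block G1: the finite Fourier calculus, rigidity, closure properties
-/

set_option autoImplicit false
set_option linter.all false

open UpperHalfPlane hiding I
open Complex MeasureTheory ModularGroup
open scoped MatrixGroups Modular Real ComplexConjugate

noncomputable section

namespace Vale.Agent.P004Z.W

theorem ee_add (x y : ℂ) : ee (x + y) = ee x * ee y := by rw [ee, ee, ee, mul_add, exp_add]

@[simp] theorem ee_zero : ee 0 = 1 := by simp [ee]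

theorem ee_ne (x : ℂ) : ee x ≠ 0 := exp_ne_zero _

theorem ee_int (n : ℤ) : ee n = 1 := by rw [ee, mul_comm, exp_int_mul_two_pi_mul_I]

theorem ee_congr {x y : ℂ} (n : ℤ) (h : x = y + n) : ee x = ee y := by
  rw [h, ee_add, ee_int, mul_one]

theorem ee_neg (x : ℂ) : ee (-x) = (ee x)⁻¹ := by rw [ee, ee, mul_neg, exp_neg]

theorem ee_sub (x y : ℂ) : ee (x - y) = ee x / ee y := by
  rw [sub_eq_add_neg, ee_add, ee_neg, div_eq_mul_inv]

theorem ee_zpow (n : ℤ) (x : ℂ) : ee (n * x) = ee x ^ n := by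
  rw [ee, ee, ← exp_int_mul, mul_left_comm]

theorem ee_pow (n : ℕ) (x : ℂ) : ee (n * x) = ee x ^ n := by simpa using ee_zpow n x

theorem conj_ee (x : ℂ) : conj (ee x) = ee (-conj x) := by
  rw [ee, ee, ← exp_conj]
  simp [map_ofNat]

theorem norm_ee (x : ℂ) : ‖ee x‖ = Real.exp (-(2 * π * x.im)) := by
  rw [ee, norm_exp]
  simp

theorem ee_eq_one {x : ℂ} : ee x = 1 ↔ ∃ n : ℤ, x = n := by
  rw [ee, exp_eq_one_iff]
  refine exists_congr fun n => ?_
  rw [mul_comm, mul_left_inj' two_pi_I_ne_zero]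

theorem ee_div_eq_one {a : ℤ} {M : ℕ} (hM : M ≠ 0) : ee (a / M) = 1 ↔ (M : ℤ) ∣ a := by
  have : (M : ℂ) ≠ 0 := Nat.cast_ne_zero.2 hM
  rw [ee_eq_one]
  refine exists_congr fun n => ?_
  rw [div_eq_iff this, mul_comm]
  norm_cast

theorem ee_quarter : ee (1 / 4) = I := by
  rw [ee, show 2 * π * I * (1 / 4) = π / 2 * I by ring, exp_pi_div_two_mul_I]

theorem sq_eq {w w' : ℂ} (h : w ^ 2 = w' ^ 2) (hw : 0 ≤ w.re) (hw' : 0 < w'.re) : w = w' := by
  refine (sq_eq_sq_iff_eq_or_eq_neg.1 h).resolve_right fun e => ?_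
  rw [e, neg_re] at hw
  linarith

theorem rt_sq (τ : ℍ) : rt τ ^ 2 = τ := by
  rw [rt, one_div]
  exact cpow_ofNat_inv_pow _ 2

theorem rt_pos (τ : ℍ) : 0 < (rt τ).re ∧ 0 < (rt τ).im := by
  have h1 : 0 ≤ (rt τ).re := by
    rw [rt, one_div, cpow_inv_two_re]
    exact Real.sqrt_nonneg _
  have h2 := congrArg Complex.im (rt_sq τ)
  rw [sq, mul_im, coe_im] at h2
  have h3 := τ.im_pos
  have h4 : 0 < (rt τ).re * (rt τ).im := by linarith
  rcases pos_and_pos_or_neg_and_neg_of_mul_pos h4 with h | h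
  exacts [h, absurd h.1 h1.not_gt]

theorem rt_ne (τ : ℍ) : rt τ ≠ 0 := fun e => by simpa [e] using (rt_pos τ).1

theorem coe_S (τ : ℍ) : ((S • τ : ℍ) : ℂ) = -(τ : ℂ)⁻¹ := by
  rw [modular_S_smul, coe_mk, inv_neg]

theorem coe_T (τ : ℍ) : ((T • τ : ℍ) : ℂ) = τ + 1 := by
  rw [modular_T_smul, coe_vadd, add_comm, ofReal_one]

theorem coe_Ti (τ : ℍ) : ((T⁻¹ • τ : ℍ) : ℂ) = τ - 1 := by
  rw [eq_sub_iff_add_eq, ← coe_T, smul_inv_smul]

theorem rt_mul {a b : ℍ} {w : ℂ} (h : w ^ 2 = a * b) (hw : 0 < w.im) : rt a * rt b = w := by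
  have h1 := rt_pos a
  have h2 := rt_pos b
  have h3 : (rt a * rt b) ^ 2 = w ^ 2 := by rw [mul_pow, rt_sq, rt_sq, h]
  refine (sq_eq_sq_iff_eq_or_eq_neg.1 h3).resolve_right fun e => ?_
  have := congrArg Complex.im e
  rw [mul_im, neg_im] at this
  nlinarith [mul_pos h1.1 h2.2, mul_pos h1.2 h2.1]

theorem rt_S (τ : ℍ) : rt (S • τ) * rt τ = I :=
  rt_mul (by rw [coe_S, I_sq, neg_mul, inv_mul_cancel₀ τ.ne_zero]) (by simp)

theorem rt_TS (τ : ℍ) : rt (T • S • τ) * rt τ = rt (T⁻¹ • τ) :=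
  rt_mul (by
    have := τ.ne_zero
    rw [rt_sq, coe_Ti, coe_T, coe_S]
    field_simp
    ring) (rt_pos _).2

theorem S_S (τ : ℍ) : S • S • τ = τ := UpperHalfPlane.ext (by rw [coe_S, coe_S, inv_neg, neg_neg, inv_inv])

theorem STS (τ : ℍ) : S • T • S • τ = T⁻¹ • S • T⁻¹ • τ := UpperHalfPlane.ext (by
  have h1 := τ.ne_zero
  have h2 := (T⁻¹ • τ).ne_zero
  rw [coe_Ti] at h2
  have h3 : (-1 + τ : ℂ) ≠ 0 := by rwa [neg_add_eq_sub]
  rw [coe_S, coe_T, coe_S, coe_Ti, coe_S, coe_Ti]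
  field_simp
  ring)

theorem sl_ind {P : SL(2, ℤ) → Prop} (hS : P S) (hT : P T) (h1 : P 1)
    (hm : ∀ a b, P a → P b → P (a * b)) (hi : ∀ a, P a → P a⁻¹) (γ : SL(2, ℤ)) : P γ := by
  have : γ ∈ Subgroup.closure {S, T} := by simp [SpecialLinearGroup.SL2Z_generators]
  induction this using Subgroup.closure_induction with
  | mem x hx => rcases hx with rfl | rfl <;> assumption
  | one => exact h1
  | mul x y _ _ a b => exact hm x y a b
  | inv x _ a => exact hi x a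

theorem inv_of {X : Type} {P : ℍ → X} (hS : ∀ τ, P (S • τ) = P τ) (hT : ∀ τ, P (T • τ) = P τ)
    (γ : SL(2, ℤ)) : ∀ τ, P (γ • τ) = P τ :=
  sl_ind (P := fun γ => ∀ τ, P (γ • τ) = P τ) hS hT (fun τ => by rw [one_smul])
    (fun a b h h' τ => by rw [mul_smul, h, h'])
    (fun a h τ => by rw [← h, smul_inv_smul]) γ

variable {N : ℕ} [NeZero N] {u k : ℤ}

theorem N_ne : (N : ℂ) ≠ 0 := Nat.cast_ne_zero.2 (NeZero.ne N)

theorem val_int (x : ℤ) : ∃ c : ℤ, (((x : AA N).val : ℕ) : ℂ) = x + 2 * N * c := by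
  obtain ⟨c, hc⟩ := (ZMod.intCast_eq_intCast_iff_dvd_sub x (x : AA N).val (2 * N)).1
    (by rw [Int.cast_natCast, ZMod.natCast_zmod_val])
  exact ⟨c, by exact_mod_cast sub_eq_iff_eq_add'.1 hc⟩

theorem eQ_int (x : ℤ) : eQ N u x = ee (u * (x : ℂ) ^ 2 / (4 * N)) := by
  obtain ⟨c, hc⟩ := val_int (N := N) x
  have := N_ne (N := N)
  refine ee_congr (u * (x * c + N * c ^ 2)) ?_
  rw [hc]
  push_cast
  field_simp
  ring

theorem eB_int (x y : ℤ) : eB N u x y = ee (-(u * (x : ℂ) * y / (2 * N))) := by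
  obtain ⟨c, hc⟩ := val_int (N := N) x
  obtain ⟨d, hd⟩ := val_int (N := N) y
  have := N_ne (N := N)
  refine ee_congr (-(u * (x * d + c * y + 2 * N * c * d))) ?_
  rw [hc, hd]
  push_cast
  field_simp
  ring

theorem eB_comm (r s : AA N) : eB N u r s = eB N u s r := by rw [eB, eB, mul_right_comm]

theorem eB_add (r s t : AA N) : eB N u r (s + t) = eB N u r s * eB N u r t := by
  obtain ⟨x, rfl⟩ := ZMod.intCast_surjective r
  obtain ⟨y, rfl⟩ := ZMod.intCast_surjective s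
  obtain ⟨z, rfl⟩ := ZMod.intCast_surjective t
  rw [← Int.cast_add, eB_int, eB_int, eB_int, ← ee_add]
  congr 1
  push_cast
  ring

@[simp] theorem eB_zero (r : AA N) : eB N u r 0 = 1 := by simp [eB]

@[simp] theorem eQ_zero : eQ N u 0 = 1 := by simp [eQ]

theorem eB_neg (r s : AA N) : eB N u r (-s) = eB N (-u) r s := by
  obtain ⟨x, rfl⟩ := ZMod.intCast_surjective r
  obtain ⟨y, rfl⟩ := ZMod.intCast_surjective s
  rw [← Int.cast_neg, eB_int, eB_int]
  congr 1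
  push_cast
  ring

theorem eB_neg_neg (r s : AA N) : eB N u (-r) (-s) = eB N u r s := by
  rw [eB_neg, eB_comm, eB_neg, neg_neg, eB_comm]

theorem eQ_sub (r s : AA N) : eQ N u (r - s) = eQ N u r * eQ N u s * eB N u r s := by
  obtain ⟨x, rfl⟩ := ZMod.intCast_surjective r
  obtain ⟨y, rfl⟩ := ZMod.intCast_surjective s
  have := N_ne (N := N)
  rw [← Int.cast_sub, eQ_int, eQ_int, eQ_int, eB_int, ← ee_add, ← ee_add]
  congr 1
  push_cast
  field_simp
  ring

theorem eQ_neg (r : AA N) : eQ N u (-r) = eQ N u r := by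
  rw [← zero_sub, eQ_sub, eB_comm]
  simp

theorem conj_eQ (r : AA N) : conj (eQ N u r) = eQ N (-u) r := by
  rw [eQ, eQ, conj_ee]
  simp [map_ofNat, neg_div, -ZMod.natCast_val]

theorem conj_eB (r s : AA N) : conj (eB N u r s) = eB N (-u) r s := by
  rw [eB, eB, conj_ee]
  simp [map_ofNat, neg_div, -ZMod.natCast_val]

theorem eQ_mul (r : AA N) : eQ N u r * eQ N (-u) r = 1 := by
  rw [eQ, eQ, ← ee_add]
  simp [neg_div]

theorem eB_mul (r s : AA N) : eB N u r s * eB N (-u) r s = 1 := by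
  rw [← eB_neg, ← eB_add, add_neg_cancel, eB_zero]

theorem conj_gs : conj (gs N u) = gs N (-u) := by simp only [gs, map_sum, conj_eQ]

section
variable (hu : IsCoprime u (2 * N))
include hu

/-- orthogonality -/
theorem sum_eB (s : AA N) : ∑ r, eB N u s r = if s = 0 then (2 * N : ℂ) else 0 := by
  split_ifs with h
  · simp [h, eB_comm 0]
  have h1 : eB N u s 1 ≠ 1 := fun e => h (by
    obtain ⟨x, rfl⟩ := ZMod.intCast_surjective s
    rw [← Int.cast_one, eB_int, ee_neg, inv_eq_one] at e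
    have := (ee_div_eq_one (a := u * x) (M := 2 * N) (NeZero.ne _)).1 (by simpa using e)
    exact (ZMod.intCast_zmod_eq_zero_iff_dvd _ _).2
      (IsCoprime.dvd_of_dvd_mul_left (by exact_mod_cast hu.symm) this))
  have h2 := Equiv.sum_comp (Equiv.addRight (1 : AA N)) (eB N u s)
  simp only [Equiv.coe_addRight, eB_add, ← Finset.sum_mul] at h2
  exact (mul_right_eq_self₀.1 h2).resolve_left h1

theorem four2 (X : AA N → ℂ) (r : AA N) :
    ∑ s, eB N u r s * ∑ t, eB N u s t * X t = 2 * N * X (-r) := by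
  simp only [Finset.mul_sum]
  rw [Finset.sum_comm]
  simp only [← mul_assoc, ← Finset.sum_mul, eB_comm r, ← eB_add]
  simp only [eB_comm _ (r + _), sum_eB hu, add_eq_zero_iff_neg_eq, ite_mul, zero_mul]
  simp

theorem gs_mul : gs N u * gs N (-u) = 2 * N := by
  rw [gs, gs, mul_comm, Finset.sum_mul]
  have : ∀ s, eQ N (-u) s * ∑ r, eQ N u r = ∑ t, eQ N u t * eB N u t s := fun s => by
    rw [← Equiv.sum_comp (Equiv.subRight s), Finset.mul_sum]
    refine Finset.sum_congr rfl fun t _ => ?_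
    rw [Equiv.subRight_apply, eQ_sub]
    linear_combination eQ N u t * eB N u t s * eQ_mul (u := u) s
  simp only [this]
  rw [Finset.sum_comm]
  simp [← Finset.mul_sum, sum_eB hu]

theorem gs_ne : gs N u ≠ 0 :=
  left_ne_zero_of_mul (gs_mul hu ▸ mul_ne_zero two_ne_zero N_ne)

end

theorem sts (X : AA N → ℂ) (r : AA N) :
    ∑ s, eB N u r s * (eQ N u s * ∑ t, eB N u s t * X t) =
      gs N u * (eQ N (-u) r * ∑ t, eB N u r t * (eQ N (-u) t * X t)) := by
  simp only [Finset.mul_sum]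
  rw [Finset.sum_comm]
  refine Finset.sum_congr rfl fun t _ => ?_
  rw [gs, ← Equiv.sum_comp (Equiv.subRight (r + t)) (eQ N u), Finset.sum_mul]
  refine Finset.sum_congr rfl fun s _ => ?_
  have h1 := eQ_sub (u := u) r (-t)
  rw [sub_neg_eq_add, eQ_neg, eB_neg] at h1
  rw [Equiv.subRight_apply, eQ_sub, eB_add, h1, eB_comm s r]
  have h2 := eQ_mul (u := u) r
  have h3 := eQ_mul (u := u) t
  have h4 := eB_mul (u := u) r t
  linear_combination (-eB N u r s * eQ N u s * eB N u s t * X t) * (h2 +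
    eQ N u r * eQ N (-u) r * h3 + eQ N u r * eQ N (-u) r * (eQ N u t * eQ N (-u) t) * h4)

variable {F G : ℍ → AA N → ℂ} {κ : ℂ}

theorem T_inv (hT : ∀ τ r, F (T • τ) r = eQ N u r * F τ r) (τ : ℍ) (r : AA N) :
    F (T⁻¹ • τ) r = eQ N (-u) r * F τ r := by
  have := hT (T⁻¹ • τ) r
  rw [smul_inv_smul] at this
  rw [this, ← mul_assoc, mul_comm (eQ _ _ _), eQ_mul, one_mul]

/-- **rigidity** -/
theorem rigid (hT : ∀ τ r, F (T • τ) r = eQ N u r * F τ r)
    (hS : ∀ τ r, F (S • τ) r = κ * rt τ ^ k * ∑ s, eB N u r s * F τ s) (τ : ℍ) (r : AA N) :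
    κ * gs N u * F τ r = F τ r := by
  obtain ⟨σ, rfl⟩ : ∃ σ, τ = S • T • S • σ := 
    ⟨S • T⁻¹ • S • τ, by rw [S_S, smul_inv_smul, S_S]⟩
  have h1 := hS (T • S • σ) r
  simp only [hT, hS σ, mul_left_comm _ (κ * rt σ ^ k), ← Finset.mul_sum] at h1
  rw [sts] at h1
  conv_lhs => rw [STS, T_inv hT, hS, ← rt_TS, mul_zpow]
  simp only [T_inv hT]
  rw [h1]
  ring

theorem Md.of_const (hT : ∀ τ r, F (ModularGroup.T • τ) r = eQ N u r * F τ r)
    (hS : ∀ τ r, F (ModularGroup.S • τ) r = κ * rt τ ^ k * ∑ s, eB N u r s * F τ s) : Md N u k F := by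
  refine ⟨hT, fun τ r => ?_⟩
  have : ∑ s, eB N u r s * F τ s = κ * gs N u * ∑ s, eB N u r s * F τ s := by
    rw [Finset.mul_sum]
    exact Finset.sum_congr rfl fun s _ => by rw [mul_left_comm, rigid hT hS]
  rw [hS]
  linear_combination (-rt τ ^ k) * this

theorem Md.S' (hu : IsCoprime u (2 * N)) (h : Md N u k F) (τ : ℍ) (r : AA N) :
    F (ModularGroup.S • τ) r = (gs N u)⁻¹ * rt τ ^ k * ∑ s, eB N u r s * F τ s := by
  rw [mul_assoc, ← h.S, inv_mul_cancel_left₀ (gs_ne hu)]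

theorem par0 (hu : IsCoprime u (2 * N))
    (hS : ∀ τ r, F (S • τ) r = κ * rt τ ^ k * ∑ s, eB N u r s * F τ s) (τ : ℍ) (r : AA N) :
    F τ r = κ ^ 2 * I ^ k * (2 * N) * F τ (-r) := by
  have h1 := hS (S • τ) r
  simp only [S_S, hS τ, mul_left_comm _ (κ * rt τ ^ k), ← Finset.mul_sum] at h1
  rw [h1, four2 hu, ← rt_S τ, mul_zpow]
  ring

/-- the same with the opposite Fourier kernel -/
theorem Md.of_const' (hu : IsCoprime u (2 * N))
    (hT : ∀ τ r, F (ModularGroup.T • τ) r = eQ N u r * F τ r)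
    (hS : ∀ τ r, F (ModularGroup.S • τ) r = κ * rt τ ^ k * ∑ s, eB N (-u) r s * F τ s) :
    Md N u k F := by
  refine Md.of_const (κ := κ * (κ ^ 2 * I ^ k * (2 * N))) hT fun τ r => ?_
  rw [hS, ← Equiv.sum_comp (Equiv.neg (AA N))]
  have : ∀ s, F τ (-s) = κ ^ 2 * I ^ k * (2 * N) * F τ s := fun s => by
    rw [par0 hu.neg_left hS, neg_neg]
  simp only [Equiv.neg_apply, eB_neg, neg_neg, this, mul_left_comm _ (κ ^ 2 * I ^ k * (2 * N)),
    ← Finset.mul_sum]
  ring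

namespace Md

theorem zero : Md N u k 0 := ⟨by simp, by simp⟩

theorem add (h : Md N u k F) (h' : Md N u k G) : Md N u k (F + G) :=
  ⟨fun τ r => by simp only [Pi.add_apply, h.T, h'.T, mul_add], fun τ r => by
    simp only [Pi.add_apply, h.S, h'.S, mul_add, Finset.sum_add_distrib]⟩

/-- multiplication by a function of level one and weight `w` -/
theorem mul (h : Md N u k F) {φ : ℍ → ℂ} {w : ℤ} (hT : ∀ τ, φ (ModularGroup.T • τ) = φ τ)
    (hS : ∀ τ, φ (ModularGroup.S • τ) = (τ : ℂ) ^ w * φ τ) :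
    Md N u (k + 2 * w) fun τ r => φ τ * F τ r :=
  ⟨fun τ r => by rw [hT, h.T, mul_left_comm], fun τ r => by
    rw [mul_left_comm, h.S, hS, zpow_add₀ (rt_ne τ), zpow_mul, zpow_ofNat, rt_sq]
    simp only [mul_left_comm _ (φ τ), ← Finset.mul_sum]
    ring⟩

theorem smul (h : Md N u k F) (c : ℂ) : Md N u k (c • F) := by
  have := h.mul (φ := fun _ => c) (w := 0) (fun _ => rfl) (by simp)
  rwa [mul_zero, add_zero] at this

theorem neg' (h : Md N u k F) : Md N u k (-F) := by simpa using h.smul (-1)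

theorem sub (h : Md N u k F) (h' : Md N u k G) : Md N u k (F - G) :=
  sub_eq_add_neg F G ▸ h.add h'.neg'

theorem sum {ι : Type} (s : Finset ι) {F : ι → ℍ → AA N → ℂ} (h : ∀ i ∈ s, Md N u k (F i)) :
    Md N u k (∑ i ∈ s, F i) :=
  Finset.sum_induction _ _ (fun _ _ => add) zero h

theorem pair_T {k' : ℤ} (h : Md N u k F) (h' : Md N (-u) k' G) (τ : ℍ) :
    ∑ r, F (ModularGroup.T • τ) r * G (ModularGroup.T • τ) r = ∑ r, F τ r * G τ r :=
  Finset.sum_congr rfl fun r _ => by rw [h.T, h'.T, mul_mul_mul_comm, eQ_mul, one_mul]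

theorem pair_S (hu : IsCoprime u (2 * N)) {k' w : ℤ} (h : Md N u k F) (h' : Md N (-u) k' G)
    (e : k + k' = 2 * w) (τ : ℍ) : ∑ r, F (ModularGroup.S • τ) r * G (ModularGroup.S • τ) r =
      (τ : ℂ) ^ w * ∑ r, F τ r * G τ r := by
  refine mul_left_cancel₀ (mul_ne_zero (two_ne_zero' ℂ) (N_ne (N := N))) ?_
  have h1 : ∑ r, (∑ s, eB N u r s * F τ s) * ∑ t, eB N (-u) r t * G τ t =
      ∑ s, F τ s * ∑ r, eB N (-u) (-s) r * ∑ t, eB N (-u) r t * G τ t := by
    simp only [Finset.sum_mul, Finset.mul_sum _ _ (F τ _)]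
    rw [Finset.sum_comm]
    refine Finset.sum_congr rfl fun s _ => Finset.sum_congr rfl fun r _ => ?_
    rw [eB_comm (-s), eB_neg, neg_neg]
    ring
  simp only [four2 hu.neg_left, neg_neg, mul_left_comm _ (2 * N : ℂ), ← Finset.mul_sum] at h1
  rw [mul_left_comm, ← h1, ← gs_mul hu, ← rt_sq, ← zpow_ofNat, ← zpow_mul, ← e,
    zpow_add₀ (rt_ne τ), Finset.mul_sum, Finset.mul_sum]
  refine Finset.sum_congr rfl fun r _ => ?_
  rw [mul_mul_mul_comm, h.S, h'.S]
  ring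

/-- complex conjugation -/
theorem cj (h : Md N u k F) :
    Md N (-u) (-k) fun τ r => conj (F τ r) * ((τ.im ^ ((k : ℝ) / 2) : ℝ) : ℂ) := by
  refine ⟨fun τ r => ?_, fun τ r => ?_⟩
  · rw [h.T, map_mul, conj_eQ, modular_T_smul, vadd_im, mul_assoc]
  have h1 := congrArg conj (h.S τ r)
  have n0 : 0 < normSq (rt τ) := normSq_pos.2 (rt_ne τ)
  have h2 : (ModularGroup.S • τ).im ^ ((k : ℝ) / 2) =
      τ.im ^ ((k : ℝ) / 2) * normSq (rt τ) ^ (-k) := by
    rw [ModularGroup.im_smul_eq_div_normSq, denom_S, ← rt_sq, map_pow,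
      Real.div_rpow τ.im_pos.le (by positivity), ← Real.rpow_natCast, ← Real.rpow_mul n0.le,
      show ((2 : ℕ) : ℝ) * ((k : ℝ) / 2) = k by push_cast; ring, Real.rpow_intCast, zpow_neg,
      div_eq_mul_inv]
  simp only [map_mul, map_sum, conj_gs, conj_eB, map_zpow₀] at h1
  rw [← mul_assoc, h1, h2, ofReal_mul, ofReal_zpow, ← mul_conj, mul_zpow]
  simp only [← mul_assoc, ← Finset.sum_mul]
  have : conj (rt τ) ^ k * conj (rt τ) ^ (-k) = 1 := by
    rw [← zpow_add₀ ((map_ne_zero _).2 (rt_ne τ)), add_neg_cancel, zpow_zero]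
  linear_combination (∑ s, eB N (-u) r s * conj (F τ s)) * ((τ.im ^ ((k : ℝ) / 2) : ℝ) : ℂ) *
    rt τ ^ (-k) * this

end Md

theorem den_inv (hu : IsCoprime u (2 * N)) (h : Md N u k F) (h' : Md N u k G) (γ : SL(2, ℤ))
    (τ : ℍ) : den N k F G (γ • τ) = den N k F G τ := by
  refine inv_of (fun τ => ?_) (fun τ => ?_) γ τ <;> simp only [den, Finset.sum_mul, mul_assoc]
  · simpa using h.pair_S hu h'.cj (w := 0) (by simp) τ
  · exact h.pair_T h'.cj τ

end Vale.Agent.P004Z.W
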