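import Vale.Agent.P004Z.W.Ex

/-!
# P004Z, block G1: the rows HECKE, SELF, LEMV
-/

set_option autoImplicit false
set_option linter.all false

open UpperHalfPlane hiding I
open Complex Matrix MeasureTheory
open scoped MatrixGroups Real ComplexConjugate Modular NumberTheorySymbols

noncomputable section

namespace Vale.Agent.P004Z

namespace W

open Gq (qc)

variable {N : ℕ} [NeZero N] {δ : ℕ} {u : ℤ} {x y : P004Z.Cf N} {F : ℍ → AA N → ℂ}

/-- the function of an array -/
def gf (x : P004Z.Cf N) : ℍ → AA N → ℂ := fun τ r => fn x r τ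

theorem en_gf (h : IsS δ x) : En (gf x) x := fun τ r => (h.sum r τ τ.im_pos).of_norm.hasSum

theorem En.gf (h : En F y) : gf y = F := funext fun τ => funext fun r => (h τ r).tsum_eq

theorem hw_eq (τ : ℍ) : hw τ = (1 - I) / √2 * rt τ := by
  have s : ((√2 : ℝ) : ℂ) ^ 2 = 2 := by
    rw [← ofReal_pow, Real.sq_sqrt zero_le_two, ofReal_ofNat]
  refine sq_eq ?_ ?_ ?_
  · rw [hw, one_div, cpow_ofNat_inv_pow, mul_pow, div_pow, s, rt_sq, div_I]
    linear_combination (-τ / 2) * I_sq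
  · rw [hw, one_div, cpow_inv_two_re]
    exact Real.sqrt_nonneg _
  · have p := rt_pos τ
    rw [div_mul_eq_mul_div, div_ofReal_re]
    refine div_pos ?_ (by positivity)
    simpa using add_pos p.1 p.2

theorem cop_u (hu : (4 * N : ℤ) ∣ u * δ + 1) : IsCoprime u (2 * N) :=
  let ⟨k, e⟩ := hu
  ⟨-δ, 2 * k, by linear_combination -e⟩

theorem sm_eq (hu : (4 * N : ℤ) ∣ u * δ + 1) (r s : AA N) : sm N δ r s = kap N δ * eB N (-u) r s := by
  have h : (δ : AA N) * -u = 1 := by
    have := (ZMod.intCast_zmod_eq_zero_iff_dvd (u * δ + 1) (2 * N)).2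
      (dvd_trans ⟨2, by push_cast; ring⟩ hu)
    push_cast at this
    linear_combination -this
  have := Gq.ee_std (2 * N) (u * r.val * s.val)
  rw [sm, ZMod.inv_eq_of_mul_eq_one _ _ _ h, eB]
  simpa [-ZMod.natCast_val, ZMod.natCast_zmod_val, neg_div] using! congrArg (kap N δ * ·) this.symm

theorem law_iff (hu : (4 * N : ℤ) ∣ u * δ + 1) : (∀ τ : ℂ, 0 < τ.im → ∀ r,
    fn x r (-1 / τ) = τ ^ 2 / hw τ * ∑ s, sm N δ r s * fn x s τ) ↔ ∀ (τ : ℍ) r,
      gf x (ModularGroup.S • τ) r = kap N δ / ((1 - I) / √2) * rt τ ^ (3 : ℤ) *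
        ∑ s, eB N (-u) r s * gf x τ s := by
  have k : ∀ (τ : ℍ) r, (τ : ℂ) ^ 2 / hw τ * ∑ s, sm N δ r s * fn x s τ =
      kap N δ / ((1 - I) / √2) * rt τ ^ (3 : ℤ) * ∑ s, eB N (-u) r s * gf x τ s := fun τ r => by
    have := rt_ne τ
    simp only [sm_eq hu, mul_assoc, ← Finset.mul_sum, gf]
    rw [hw_eq, show (τ : ℂ) ^ 2 = rt τ ^ 4 by rw [← rt_sq, ← pow_mul], zpow_ofNat]
    generalize (1 - I) / √2 = c
    field_simp
  refine ⟨fun h τ r => ?_, fun h τ hτ r => ?_⟩
  · rw [← k, ← h τ τ.im_pos, gf, coe_S, neg_div, one_div]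
  · have := h ⟨τ, hτ⟩ r
    rwa [← k, gf, coe_S, ← one_div, ← neg_div] at this

theorem md_gf (hu : (4 * N : ℤ) ∣ u * δ + 1) (h : IsS δ x) : Md N u 3 (gf x) := by
  refine Md.of_const' (cop_u hu) (fun τ r => ?_) ((law_iff hu).1 h.law)
  refine (en_gf h _ r).unique (hs_cg ((en_gf h τ r).mul_left _) fun n => ?_)
  by_cases e : x n r = 0
  · simp [e]
  obtain ⟨a, ha⟩ := hu
  obtain ⟨b, hb⟩ := h.sup n r e
  have := N_ne (N := N)
  have h1 : (n : ℂ) = u * r.val ^ 2 + 4 * N * (n * a - u * b) := by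
    exact_mod_cast (by linear_combination n * ha - u * hb :
      (n : ℤ) = u * r.val ^ 2 + 4 * N * (n * a - u * b))
  rw [mul_left_comm, eQ, ← ee_add, coe_T]
  refine congrArg _ (ee_congr (n * a - u * b) ?_)
  push_cast
  field_simp
  linear_combination h1

theorem Md.S2 (hu : IsCoprime u (2 * N)) (h : Md N u 3 F) (τ : ℍ) (r : AA N) :
    F (ModularGroup.S • τ) r = (gs N u)⁻¹ * ((gs N u)⁻¹ ^ 2 * I ^ (3 : ℤ) * (2 * N)) *
      rt τ ^ (3 : ℤ) * ∑ s, eB N (-u) r s * F τ s := by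
  rw [h.S' hu, ← Equiv.sum_comp (Equiv.neg (AA N))]
  simp only [Equiv.neg_apply, eB_neg, par0 hu (h.S' hu) τ (-_), neg_neg,
    mul_left_comm _ ((gs N u)⁻¹ ^ 2 * I ^ (3 : ℤ) * (2 * N)), ← Finset.mul_sum]
  ring

theorem isS_of (hu : (4 * N : ℤ) ∣ u * δ + 1) (h : IsS δ x) (h0 : x ≠ 0) (hF : Md N u 3 F)
    (hy : En F y) (z : ∀ r, y 0 r = 0) : IsS δ y := by
  have m0 := N_ne (N := N)
  refine ⟨z, fun n r e => ?_, fun r τ hτ => (hy ⟨τ, hτ⟩ r).summable.norm,
    (law_iff hu).2 fun τ r => ?_⟩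
  · have h1 : En (fun τ => F (ModularGroup.T • τ)) fun n r => ee (n / (4 * N)) * y n r :=
      fun τ r => hs_cg (hy _ r) fun n => by
        rw [coe_T, mul_add, add_div, ee_add, mul_one]
        ring
    have h2 := congrFun (congrFun (h1.uq (c' := fun n r => eQ N u r * y n r) fun τ r => by
      simp only [hF.T]
      exact hs_cg ((hy τ r).mul_left _) fun n => mul_assoc _ _ _) n) r
    have h3 := (ee_div_eq_one (a := n - u * r.val ^ 2) (M := 4 * N) (NeZero.ne _)).1 (by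
      push_cast
      rw [sub_div, ee_sub, mul_right_cancel₀ e h2, eQ, div_self (ee_ne _)])
    push_cast at h3
    exact ((h3.mul_left δ).add (hu.mul_left (r.val ^ 2))).trans (dvd_of_eq (by ring))
  · rw [hy.gf, hF.S2 (cop_u hu)]
    congr 2
    by_contra k
    refine h0 ((en_gf h).uq fun τ r => ?_)
    have h1 := (law_iff hu).1 h.law (ModularGroup.S • τ) r
    have h2 := (md_gf hu h).S2 (cop_u hu) (ModularGroup.S • τ) r
    rw [S_S, mul_assoc] at h1 h2
    rw [h1, mul_eq_zero_of_right _ ((mul_eq_mul_right_iff.1 (h2.symm.trans h1)).resolve_left k)]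
    simpa using hasSum_zero

theorem bd_gf (hP : PETS) (ok : Ok N δ) (h : IsS δ x) : Bd (gf x) := by
  obtain ⟨C, k⟩ := (hP N δ ok x h).2.1
  refine ⟨fun r => measurable_of_tendsto_metrizable (f := fun m τ => ∑ n ∈ Finset.range m,
    x n r * ee (n * (τ : ℍ) / (4 * N))) (fun m => Continuous.measurable ?_)
      (tendsto_pi_nhds.2 fun τ => (en_gf h τ r).tendsto_sum_nat), C, fun τ r => k r τ τ.im_pos⟩
  unfold ee
  fun_prop

theorem pet_eq (b : Bd (gf x)) (b' : Bd (gf y)) :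
    P004Z.pet (fn x) (fn y) = ∫ τ in 𝒟, den N 3 (gf x) (gf y) τ := by
  rw [W2.int_fd (b.meas b')]
  refine setIntegral_congr_fun Sk.closed_FD.measurableSet fun z hz => ?_
  simp only [den, gf, ofComplex_apply_of_im_pos hz.2.2, mul_div_assoc]
  congr 1
  rw [← ofReal_pow, ← ofReal_div, ← Real.rpow_two]
  exact congrArg _ ((congrArg _ (by norm_num)).trans (Real.rpow_sub hz.2.2 _ _))

variable {p : ℕ} [Fact p.Prime]

theorem ex_dt (ok : Ok N δ) (hp : ¬ p ∣ 2 * N * δ) : ∃ σ u, (4 * N : ℤ) ∣ u * δ + 1 ∧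
    Dt N p σ u (J(p | δ) * J(-δ | p) : ℤ) := by
  have P : p.Prime := Fact.out
  obtain ⟨c1, c2⟩ := Nat.coprime_mul_iff_right.1 (P.coprime_iff_not_dvd.2 hp)
  have h2 : p ≠ 2 := fun e => hp (e ▸ (dvd_mul_right _ _).mul_right _)
  have c : IsCoprime (p : ℤ) (2 * N) := by exact_mod_cast Nat.isCoprime_iff_coprime.2 c1
  obtain ⟨i, j, e⟩ := cop4 c
  obtain ⟨i', j', e'⟩ : IsCoprime (4 * N : ℤ) δ := by
    exact_mod_cast Nat.isCoprime_iff_coprime.2
      (((Nat.coprime_two_left.2 ok.odd).pow_left 2).mul_left ok.cop)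
  have M0 : 4 * N * p ≠ 0 := mul_ne_zero (NeZero.ne _) P.ne_zero
  obtain ⟨a, t, ht⟩ : ∃ (a : ℕ) (t : ℤ), a = i * (4 * N) - j * p * j' + 4 * N * p * t := by
    obtain ⟨a, ha⟩ := Int.eq_ofNat_of_zero_le
      (Int.emod_nonneg (i * (4 * N) - j * p * j') (Nat.cast_ne_zero.2 M0))
    exact ⟨a, -((i * (4 * N) - j * p * j') / (4 * N * p : ℕ)), by
      rw [← ha, Int.emod_def]; push_cast; ring⟩
  have a1 : (4 * N : ℤ) ∣ a * δ + 1 := ⟨i * δ + p * t * δ + i + j * p * i', by
    rw [ht]; linear_combination -e - j * p * e'⟩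
  obtain ⟨k, a2⟩ : (p : ℤ) ∣ a - 1 := ⟨-j - j * j' + 4 * N * t, by rw [ht]; linear_combination e⟩
  obtain ⟨σ, hσ⟩ := ex_sig M0 (a := a) (Nat.isCoprime_iff_coprime.1 (by
    obtain ⟨l, a1⟩ := a1
    push_cast
    exact .mul_right ⟨-δ, l, by linear_combination -a1⟩ ⟨1, -k, by linear_combination a2⟩))
  have m0 := N_ne (N := N)
  have p0 := p_ne (p := p)
  have sg : Sg N a σ := fun b => by
    refine ((congrArg σ (congrArg ee ?_)).trans (hσ (b * p))).trans (congrArg ee ?_) <;>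
      push_cast <;> field_simp
  have sq : ∀ z, σ (sq2 p z) = sq2 p z := fun z => by
    simp only [sq2, map_sum]
    refine Finset.sum_congr rfl fun y _ => ?_
    obtain ⟨b, hb⟩ := ZMod.intCast_surjective (z * y ^ 2)
    have a3 : (a : ℂ) = 1 + p * k := by exact_mod_cast sub_eq_iff_eq_add'.1 a2
    rw [← hb, ← Gq.ee_std]
    refine ((congrArg σ (congrArg ee ?_)).trans (hσ (4 * N * b))).trans (ee_congr (k * b) ?_)
    · push_cast
      field_simp
    · rw [a3]
      push_cast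
      field_simp
  have jj := Gq.J_cop c2
  have op := P.odd_of_ne_two h2
  have s1 := sq 1
  rw [sq2_eq h2 one_ne_zero, show qc p 1 = 1 by simp [qc], one_mul, Gq.gs_prime P h2, map_mul,
    Gq.e4] at s1
  have sI : σ I = I ^ a := by
    have := sg N
    rw [show ((N : ℤ) : ℂ) / (4 * N) = 1 / 4 by push_cast; field_simp, ee_quarter] at this
    rw [this, ← ee_quarter, ← ee_pow]
    congr 1
    push_cast
    field_simp
  have ad : a * δ % 4 = 3 := by
    have := dvd_of_mul_right_dvd a1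
    zify
    omega
  have key : σ (√(p : ℝ) : ℝ) = (J(p | δ) * J(-δ | p) : ℤ) * (√(p : ℝ) : ℝ) ∧
      (J(p | δ) * J(-δ | p) = 1 ∨ J(p | δ) * J(-δ | p) = -1) := by
    rw [neg_eq_neg_one_mul (δ : ℤ), jacobiSym.mul_left, Gq.J_neg_one op]
    split_ifs at s1 ⊢ with h4
    · rw [one_mul, ← jacobiSym.quadratic_reciprocity_one_mod_four h4 ok.odd, jj]
      simpa using s1
    rw [sI, I_pow_eq_pow_mod] at s1
    rw [Nat.mul_mod] at ad
    rcases Nat.odd_mod_four_iff.1 (Nat.odd_iff.1 ok.odd) with h5 | h5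
    · rw [jacobiSym.quadratic_reciprocity_one_mod_four h5 op, neg_one_mul, mul_neg, jj]
      rw [show a % 4 = 3 by rw [h5] at ad; omega, I_pow_three] at s1
      exact ⟨mul_left_cancel₀ I_ne_zero (by push_cast; linear_combination -s1), .inr rfl⟩
    · rw [jacobiSym.quadratic_reciprocity_three_mod_four h5
        ((Nat.odd_mod_four_iff.1 (Nat.odd_iff.1 op)).resolve_left h4), neg_one_mul, neg_neg, jj]
      rw [show a % 4 = 1 by rw [h5] at ad; omega, pow_one] at s1
      exact ⟨mul_left_cancel₀ I_ne_zero (by push_cast; linear_combination s1), .inl rfl⟩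
  exact ⟨σ, a, a1, c, cop_u a1, sg, key.1, by exact_mod_cast key.2, sq⟩

theorem J_tt (n : ℕ) : ((J(p | δ) * J(-((δ : ℤ) * n) | p) : ℤ) : ℂ) =
    (J(p | δ) * J(-δ | p) : ℤ) * qc p n := by
  have := Gq.J_qc (p := p) n
  rw [← neg_mul, jacobiSym.mul_left, ← mul_assoc, Int.cast_mul _ J(n | p), this, Int.cast_natCast]

variable {σ : ℂ →+* ℂ}

theorem en_tt (d : Dt N p σ u (J(p | δ) * J(-δ | p) : ℤ)) (h : IsS δ x) :
    En (((J(p | δ) * J(-δ | p) : ℤ) : ℂ) • ((p : ℂ)⁻¹ • TH N p σ (gf x) + (-1 : ℂ) • gf x))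
      (TT δ p x) := by
  refine ((((d.en (en_gf h)).smul _).add ((en_gf h).smul _)).smul _).cg fun n r => ?_
  simp only [TT, J_tt, Pi.smul_apply, Pi.add_apply, smul_eq_mul, inv_mul_cancel_left₀ p_ne]
  rcases d.et with e | e <;> rw [e] <;> split_ifs <;> ring

end W

open W

theorem hecke : HECKE := fun N _ δ p ok P hp x h => by
  have := Fact.mk P
  obtain ⟨σ, u, hu, d⟩ := ex_dt ok hp
  rcases eq_or_ne x 0 with rfl | h0
  · rwa [show TT δ p (0 : Cf N) = 0 by funext n r; simp [TT]]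
  have m := md_gf hu h
  exact isS_of hu h h0 ((((d.md m).smul _).add (m.smul _)).smul _) (en_tt d h)
    fun r => by simp [TT, h.zero]

theorem self (hP : PETS) : SELF := fun N _ δ p ok P hp x y h h' => by
  have := Fact.mk P
  obtain ⟨σ, u, hu, d⟩ := ex_dt ok hp
  have b := bd_gf hP ok h
  have b' := bd_gf hP ok h'
  have t := bd_gf hP ok (hecke N δ p ok P hp x h)
  have t' := bd_gf hP ok (hecke N δ p ok P hp y h')
  have k := d.self (md_gf hu h) (md_gf hu h') b b'
  obtain ⟨η, e⟩ : ∃ η : ℝ, ((J(p | δ) * J(-δ | p) : ℤ) : ℂ) = η := ⟨_, (ofReal_intCast _).symm⟩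
  have e1 : ∀ {x : Cf N}, IsS δ x → TH N p σ (gf x) = fun τ r =>
      p * η * gf (TT δ p x) τ r + p * gf x τ r := fun h => by
    funext τ r
    simp only [(en_tt d h).gf, Pi.smul_apply, Pi.add_apply, smul_eq_mul, ← e]
    have := p_ne (p := p)
    rcases d.et with e | e <;> rw [e] <;> field_simp <;> ring
  have e2 : den N 3 (TH N p σ (gf x)) (gf y) = fun τ =>
      p * η * den N 3 (gf (TT δ p x)) (gf y) τ + p * den N 3 (gf x) (gf y) τ := by
    funext τ
    simp only [den, e1 h, add_mul, mul_assoc, Finset.sum_add_distrib, ← Finset.mul_sum]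
  have e3 : den N 3 (gf x) (TH N p σ (gf y)) = fun τ =>
      p * η * den N 3 (gf x) (gf (TT δ p y)) τ + p * den N 3 (gf x) (gf y) τ := by
    funext τ
    simp only [den, e1 h', map_add, map_mul, map_natCast, conj_ofReal, mul_add, add_mul,
      mul_left_comm (gf x τ _), mul_assoc, Finset.sum_add_distrib, ← Finset.mul_sum]
  rw [e2, e3, integral_add ((t.int b').const_mul _) ((b.int b').const_mul _),
    integral_add ((b.int t').const_mul _) ((b.int b').const_mul _), add_left_inj,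
    integral_const_mul, integral_const_mul] at k
  rw [pet_eq t b', pet_eq b t']
  refine mul_left_cancel₀ (mul_ne_zero p_ne ?_) k
  rcases d.et with e' | e' <;> simp [← e, e']

theorem lemv : LEMV := fun N _ δ p ok P hp x h hv => by
  have := Fact.mk P
  obtain ⟨σ, u, hu, d⟩ := ex_dt ok hp
  have q : J(-δ | p) = 1 ∨ J(-δ | p) = -1 := by
    rcases jacobiSym.trichotomy (-δ) p with e | e
    · have := d.et
      simp [e] at this
    · exact e
  have k := d.van (md_gf hu h) (en_gf h) (e := -J(-δ | p)) (by rcases q with e | e <;> simp [e])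
    fun n r => by
      have h1 := Gq.J_qc (p := p) n
      have h2 := hv n r
      rw [← neg_mul, jacobiSym.mul_left] at h2
      rw [Int.cast_natCast] at h1
      rw [← h1]
      rcases q with e | e <;> rcases jacobiSym.trichotomy n p with e' | e' | e' <;>
        simp [e, e'] at h2 ⊢ <;> exact h2
  refine ⟨-J(-δ | p) * (J(p | δ) * J(-δ | p) : ℤ), ?_, funext fun n => funext fun r => ?_⟩
  · rcases d.et with e' | e' <;> rw [e'] <;> rcases q with e | e <;> simp [e]
  have k1 := k n r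
  have k2 := k (p ^ 2 * n) (p * r)
  rw [if_pos (dvd_mul_right _ _), Nat.mul_div_cancel_left _ (pow_pos P.pos 2),
    ← (d.mul_iff _ _).1 rfl, show ((p ^ 2 * n : ℕ) : ZMod p) = 0 by simp, Gq.qc_zero] at k2
  simp only [TT, J_tt, Pi.smul_apply, smul_eq_mul]
  rcases d.et with e' | e' <;> rw [e'] at k1 k2 ⊢ <;> rcases q with e | e <;>
    rw [e] at k1 k2 ⊢ <;> push_cast at k1 k2 ⊢ <;> split_ifs at k1 ⊢ <;>
    first | linear_combination k1 + k2 | linear_combination k1 - k2 | linear_combination -k1 + k2 |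
      linear_combination -k1 - k2

end Vale.Agent.P004Z
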