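import Vale.Agent.P004Z.W.Pm

/-!
# P004Z, block G1: the cosets of the Hecke operator `T(p ^ 2)`
-/

set_option autoImplicit false
set_option linter.all false

open UpperHalfPlane hiding I
open Complex Matrix
open scoped MatrixGroups Real ComplexConjugate

noncomputable section

namespace Vale.Agent.P004Z.W

variable (N p : ℕ) [NeZero N] [Fact p.Prime]

/-- `p x = (A, B; C, D)` -/
structure Im (x : Mp) (A B C D : ℤ) : Prop where
  a : x.g 0 0 * p = A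
  b : x.g 0 1 * p = B
  c : x.g 1 0 * p = C
  d : x.g 1 1 * p = D

/-- `p x` is integral -/
def Dp (x : Mp) : Prop := ∃ A B C D, Im p x A B C D

abbrev Ix : Type := Unit ⊕ ZMod p ⊕ ZMod (p ^ 2)

/-- the representatives -/
def dl : Ix p → Mp
  | .inl _ => aa p
  | .inr (.inl ν) => nn (4 * N * (ν.val : ℤ) / p)
  | .inr (.inr b) => (aa p)⁻¹ * nn (4 * N * b.val : ℤ)

variable {N p}

theorem p_r : (p : ℝ) ≠ 0 := Nat.cast_ne_zero.2 (NeZero.ne p)

theorem Im.crit {x y : Mp} {A B C D A' B' C' D' : ℤ} (h : Im p x A B C D) (h' : Im p y A' B' C' D') :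
    x * y⁻¹ ∈ Gm ↔ (p : ℤ) ^ 2 ∣ A * D' - B * C' ∧ (p : ℤ) ^ 2 ∣ B * A' - A * B' ∧
      (p : ℤ) ^ 2 ∣ C * D' - D * C' ∧ (p : ℤ) ^ 2 ∣ D * A' - C * B' := by
  have k : ∀ (t : ℝ) (n : ℤ), t * p ^ 2 = n → ((∃ z : ℤ, t = z) ↔ (p : ℤ) ^ 2 ∣ n) :=
    fun t n e => exists_congr fun z => by
      rw [← mul_left_inj' (pow_ne_zero 2 (p_r (p := p))), e, mul_comm]
      norm_cast
  obtain ⟨i1, i2, i3, i4⟩ := inv_e y.g
  rw [mem_Gm]
  simp only [Fin.forall_fin_two, Mp.mul_g, Mp.inv_g, mul_e, i1, i2, i3, i4, and_assoc]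
  refine and_congr (k _ _ ?_) (and_congr (k _ _ ?_) (and_congr (k _ _ ?_) (k _ _ ?_))) <;>
    push_cast <;> simp only [← h.a, ← h.b, ← h.c, ← h.d, ← h'.a, ← h'.b, ← h'.c, ← h'.d] <;> ring

theorem Im.det {x : Mp} {A B C D : ℤ} (h : Im p x A B C D) : A * D - B * C = p ^ 2 := by
  have : ((A * D - B * C : ℤ) : ℝ) = p ^ 2 := by
    push_cast
    rw [← h.a, ← h.b, ← h.c, ← h.d]
    linear_combination (p : ℝ) ^ 2 * det_e x.g
  exact_mod_cast this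

theorem Dp.inv {x : Mp} (h : Dp p x) : Dp p x⁻¹ := by
  obtain ⟨A, B, C, D, h⟩ := h
  obtain ⟨i1, i2, i3, i4⟩ := inv_e x.g
  refine ⟨D, -B, -C, A, ?_, ?_, ?_, ?_⟩ <;> simp [i1, i2, i3, i4, h.a, h.b, h.c, h.d]

theorem Dp.mul {x γ : Mp} (h : Dp p x) (hγ : γ ∈ Gm) : Dp p (x * γ) := by
  obtain ⟨A, B, C, D, h⟩ := h
  choose z hz using mem_Gm.1 hγ
  refine ⟨A * z 0 0 + B * z 1 0, A * z 0 1 + B * z 1 1, C * z 0 0 + D * z 1 0,
    C * z 0 1 + D * z 1 1, ?_, ?_, ?_, ?_⟩ <;>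
    simp only [Mp.mul_g, mul_e, hz, Int.cast_add, Int.cast_mul, ← h.a, ← h.b, ← h.c, ← h.d] <;> ring

theorem Dp.mul' {x γ : Mp} (h : Dp p x) (hγ : γ ∈ Gm) : Dp p (γ * x) := by
  simpa using (h.inv.mul (inv_mem hγ)).inv

theorem im_a : Im p (aa p) (p ^ 2) 0 0 1 := by
  constructor <;> simp [sq, p_r]

theorem im_n (z : ℤ) : Im p (nn (4 * N * z / p)) p (4 * N * z) 0 p := by
  constructor <;> simp [p_r]

theorem im_b (z : ℤ) : Im p ((aa p)⁻¹ * nn z) 1 z 0 (p ^ 2) := by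
  constructor <;> simp [sq, p_r]
  rw [mul_comm, mul_inv_cancel_left₀ p_r]

theorem dp_dl : ∀ i, Dp p (dl N p i)
  | .inl _ => ⟨_, _, _, _, im_a⟩
  | .inr (.inl _) => ⟨_, _, _, _, im_n _⟩
  | .inr (.inr _) => ⟨_, _, _, _, im_b _⟩

theorem solve {q : ℕ} [NeZero q] {A B C D w : ℤ} (h : (q : ℤ) ∣ B * C - A * D)
    (hu : IsCoprime A q ∨ IsCoprime C q) (hw : IsCoprime w q) :
    ∃ b : ZMod q, (q : ℤ) ∣ B - A * (w * b.val) ∧ (q : ℤ) ∣ D - C * (w * b.val) := by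
  simp only [← ZMod.intCast_eq_intCast_iff_dvd_sub] at h ⊢
  push_cast at h ⊢
  simp only [ZMod.natCast_zmod_val]
  have k : ∀ a : ℤ, IsCoprime a q → ∃ i : ZMod q, i * a = 1 := fun a ⟨i, j, e⟩ =>
    ⟨i, by simpa using congrArg (Int.cast : ℤ → ZMod q) e⟩
  obtain ⟨w', e⟩ := k w hw
  rcases hu with hu | hu <;> obtain ⟨i, e'⟩ := k _ hu
  · exact ⟨w' * i * B, by linear_combination B * A * i * e + B * e',
      by linear_combination B * C * i * e - i * h + D * e'⟩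
  · exact ⟨w' * i * D, by linear_combination D * A * i * e + i * h + B * e',
      by linear_combination D * C * i * e + D * e'⟩

variable (hp : IsCoprime (p : ℤ) (2 * N))
include hp

theorem cop4 : IsCoprime (4 * N : ℤ) p :=
  (hp.pow_right (n := 2)).symm.of_isCoprime_of_dvd_left ⟨N, by ring⟩

theorem ex_dl {x : Mp} (h : Dp p x) : ∃ i, x * (dl N p i)⁻¹ ∈ Gm := by
  obtain ⟨A, B, C, D, h⟩ := h
  have P : Prime (p : ℤ) := Nat.prime_iff_prime_int.1 Fact.out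
  have k : ∀ {a b : ℤ}, ¬ ((p : ℤ) ∣ a ∧ (p : ℤ) ∣ b) → IsCoprime a p ∨ IsCoprime b p := fun e =>
    (not_and_or.1 e).imp (fun e => (P.coprime_iff_not_dvd.2 e).symm)
      fun e => (P.coprime_iff_not_dvd.2 e).symm
  have d := h.det
  by_cases h1 : (p : ℤ) ∣ A ∧ (p : ℤ) ∣ C
  · obtain ⟨⟨A, rfl⟩, C, rfl⟩ := h1
    by_cases h2 : (p : ℤ) ∣ A ∧ (p : ℤ) ∣ C
    · obtain ⟨⟨A, rfl⟩, C, rfl⟩ := h2
      exact ⟨.inl (), (h.crit im_a).2 ⟨⟨A, by ring⟩, ⟨B, by ring⟩, ⟨C, by ring⟩, D, by ring⟩⟩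
    obtain ⟨ν, ⟨s, e⟩, t, e'⟩ := solve (q := p) (B := B) (D := D)
      ⟨-1, mul_left_cancel₀ P.ne_zero (by linear_combination -d)⟩ (k h2) (cop4 hp)
    exact ⟨.inr (.inl ν), (h.crit (im_n _)).2 ⟨⟨A, by ring⟩, ⟨s, by linear_combination p * e⟩,
      ⟨C, by ring⟩, t, by linear_combination p * e'⟩⟩
  · obtain ⟨b, e, e'⟩ := solve (q := p ^ 2) (A := A) (B := B) (C := C) (D := D) (w := 4 * N)
      ⟨-1, by push_cast; linear_combination -d⟩
      (by push_cast; exact (k h1).imp .pow_right .pow_right)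
      (by push_cast; exact (cop4 hp).pow_right)
    push_cast at e e'
    exact ⟨.inr (.inr b), (h.crit (im_b _)).2 ⟨⟨A, by ring⟩, by simpa using e, ⟨C, by ring⟩,
      by simpa using e'⟩⟩

theorem uq_dl {i j : Ix p} (h : dl N p i * (dl N p j)⁻¹ ∈ Gm) : i = j := by
  have P : Prime (p : ℤ) := Nat.prime_iff_prime_int.1 Fact.out
  have n1 : ¬ (p : ℤ) ^ 2 ∣ p := fun e =>
    P.not_dvd_one (Int.dvd_of_mul_dvd_mul_left P.ne_zero (by rwa [mul_one, ← sq]))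
  have n0 : ¬ (p : ℤ) ^ 2 ∣ 1 := fun e => n1 (e.trans (one_dvd _))
  have k : ∀ {q : ℕ} [NeZero q] {a b : ZMod q}, IsCoprime (4 * N : ℤ) q →
      (q : ℤ) ∣ 4 * N * (a.val - b.val) → a = b := fun c e => by
    simpa using ((ZMod.intCast_eq_intCast_iff_dvd_sub _ _ _).2 (c.symm.dvd_of_dvd_mul_left e)).symm
  rcases i with _ | ν | b <;> rcases j with _ | ν' | b'
  · rfl
  · exact absurd (by simpa using ((im_a.crit (im_n _)).1 h).2.2.2) n1
  · exact absurd (by simpa using ((im_a.crit (im_b _)).1 h).2.2.2) n0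
  · exact absurd (by simpa using (((im_n _).crit im_a).1 h).1) n1
  · rw [k (a := ν) (b := ν') (cop4 hp) (Int.dvd_of_mul_dvd_mul_left P.ne_zero
      (by convert (((im_n _).crit (im_n _)).1 h).2.1 using 1 <;> ring))]
  · exact absurd (by simpa using (((im_n _).crit (im_b _)).1 h).2.2.2) n1
  · exact absurd (by simpa using (((im_b _).crit im_a).1 h).1) n0
  · exact absurd (by simpa using (((im_b _).crit (im_n _)).1 h).1) n1
  · rw [k (a := b) (b := b') (by push_cast; exact (cop4 hp).pow_right)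
      (by convert (((im_b _).crit (im_b _)).1 h).2.1 using 1 <;> [norm_cast; ring])]

theorem gd_dl : ∀ i, Gd N p (dl N p i)⁻¹
  | .inl _ => ⟨_, tp_ai⟩
  | .inr (.inl ν) => ⟨_, by simpa [dl, nn_inv, neg_div] using tp_n hp (-ν.val)⟩
  | .inr (.inr b) => ⟨_, by
    simpa [dl] using Gd.sw hp ⟨_, tp_a⟩ (inv_mem (nn_mem (4 * N * b.val))) (one_mem _)⟩

theorem Dp.gd {x : Mp} (h : Dp p x) : Gd N p x := by
  obtain ⟨i, e⟩ := ex_dl hp h.inv
  exact ⟨_, by simpa using (gd_dl hp i).sw hp (one_mem _) (inv_mem e)⟩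

end Vale.Agent.P004Z.W
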