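import Mathlib

/-!
# P004Z, block G1: vector valued forms of half integral weight (words)

`A = ℤ / 2N` with the quadratic form `u r ^ 2 / 4N`, `u` prime to `2N`; weight `k / 2`.
-/

set_option autoImplicit false
set_option linter.all false

open UpperHalfPlane hiding I
open Complex MeasureTheory
open scoped MatrixGroups Modular Real ComplexConjugate

noncomputable section

namespace Vale.Agent.P004Z.W

/-- `e(x)` -/
def ee (x : ℂ) : ℂ := cexp (2 * π * I * x)

/-- the principal square root of `τ` -/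
def rt (τ : ℍ) : ℂ := (τ : ℂ) ^ (1 / 2 : ℂ)

/-- the discriminant group -/
abbrev AA (N : ℕ) : Type := ZMod (2 * N)

instance (N : ℕ) [NeZero N] : NeZero (2 * N) := ⟨mul_ne_zero two_ne_zero (NeZero.ne N)⟩

variable (N : ℕ) [NeZero N] (u : ℤ) (k : ℤ)

/-- `e(u r ^ 2 / 4N)` -/
def eQ (r : AA N) : ℂ := ee (u * (r.val : ℂ) ^ 2 / (4 * N))

/-- `e(-u r s / 2N)` -/
def eB (r s : AA N) : ℂ := ee (-(u * (r.val : ℂ) * s.val / (2 * N)))

/-- the Gauss sum of the form -/
def gs : ℂ := ∑ r : AA N, eQ N u r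

/-- modularity of weight `k / 2` (no regularity) -/
structure Md (F : ℍ → AA N → ℂ) : Prop where
  T : ∀ τ r, F (ModularGroup.T • τ) r = eQ N u r * F τ r
  S : ∀ τ r, gs N u * F (ModularGroup.S • τ) r = rt τ ^ k * ∑ s, eB N u r s * F τ s

/-- the expansion in `e(τ / 4N)` -/
def Ex (F : ℍ → AA N → ℂ) (c : ℤ → AA N → ℂ) : Prop :=
  ∀ (τ : ℍ) r, HasSum (fun n : ℤ => c n r * ee (n * τ / (4 * N))) (F τ r)

/-- a cusp form with its coefficients -/
structure Cf (g : ℍ → AA N → ℂ) (c : ℤ → AA N → ℂ) : Prop where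
  md : Md N u k g
  ex : Ex N g c
  pos : ∀ n ≤ 0, ∀ r, c n r = 0

/-- a weakly holomorphic form with its coefficients -/
structure Wh (f : ℍ → AA N → ℂ) (c : ℤ → AA N → ℂ) : Prop where
  md : Md N u k f
  ex : Ex N f c
  low : ∃ m : ℤ, ∀ n < m, ∀ r, c n r = 0

/-- the invariant density of two forms of weight `k / 2` -/
def den (g h : ℍ → AA N → ℂ) (τ : ℍ) : ℂ :=
  (∑ r, g τ r * conj (h τ r)) * ((τ.im ^ ((k : ℝ) / 2) : ℝ) : ℂ)

/-- the Petersson product -/
def pet (g h : ℍ → AA N → ℂ) : ℂ := ∫ τ in 𝒟, den N k g h τ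

/-- the inverse of `p` modulo `2N` acting on `A` -/
def dv (p : ℕ) (r : AA N) : AA N := (p : AA N)⁻¹ * r

/-- the Hecke operator `T(p ^ 2)` in weight `3 / 2` on coefficients; `ε = ± 1` is the sign
with `ε = u` modulo `4` (so `ε n` is the discriminant `D`, `u = -|d|⁻¹`, `ε = -sign d`) -/
def hk (ε : ℤ) (p : ℕ) (c : ℤ → AA N → ℂ) : ℤ → AA N → ℂ := fun n r =>
  c (p ^ 2 * n) (p * r) + (jacobiSym (ε * n) p : ℂ) * c n r +
    if (p : ℤ) ^ 2 ∣ n then p * c (n / p ^ 2) (dv N p r) else 0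

end Vale.Agent.P004Z.W
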