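import Vale.Agent.P004Z.W.Hk

/-!
# P004Z, block G1: the expansion of the Hecke operator, forms with vanishing coefficients
-/

set_option autoImplicit false
set_option linter.all false

open UpperHalfPlane hiding I
open Complex Matrix
open scoped MatrixGroups Real ComplexConjugate

noncomputable section

namespace Vale.Agent.P004Z.W

open Gq (qc)

variable {N p : ℕ} [NeZero N] [Fact p.Prime] {σ : ℂ →+* ℂ} {u : ℤ} {η : ℂ} {F G g : ℍ → AA N → ℂ}
  {c c' : ℕ → AA N → ℂ}

/-- the expansion -/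
def En (F : ℍ → AA N → ℂ) (c : ℕ → AA N → ℂ) : Prop :=
  ∀ (τ : ℍ) r, HasSum (fun n : ℕ => c n r * ee (n * τ / (4 * N))) (F τ r)

theorem En.cg (h : En F c) (e : ∀ n r, c' n r = c n r) : En F c' :=
  fun τ r => hs_cg (h τ r) fun n => by rw [e]

theorem En.add (h : En F c) (h' : En G c') : En (F + G) (c + c') :=
  fun τ r => hs_cg ((h τ r).add (h' τ r)) fun n => add_mul _ _ _

theorem En.smul (h : En F c) (a : ℂ) : En (a • F) (a • c) :=
  fun τ r => hs_cg ((h τ r).mul_left a) fun n => mul_assoc _ _ _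

theorem En.sum {ι : Type} [Fintype ι] {F : ι → ℍ → AA N → ℂ} {c : ι → ℕ → AA N → ℂ}
    (h : ∀ i, En (F i) (c i)) : En (∑ i, F i) (∑ i, c i) := fun τ r => by
  simp only [Finset.sum_apply, Finset.sum_mul]
  exact hasSum_sum fun i _ => h i τ r

theorem En.ext (h : En F c) (h' : En G c) : F = G :=
  funext fun τ => funext fun r => (h τ r).unique (h' τ r)

theorem En.uq (h : En F c) (h' : En F c') : c = c' := by
  funext n r
  have m0 := N_ne (N := N)
  have := four_uniq (a := fun z : ℤ => if 0 ≤ z then (c z.toNat r - c' z.toNat r) *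
    ee (z * I / (4 * N)) else 0) (fun x => ?_) n
  · simpa [ee_ne, sub_eq_zero] using this
  refine (Nat.cast_injective.hasSum_iff fun z hz => ?_).1 ?_
  · rw [if_neg fun e => hz ⟨_, Int.toNat_of_nonneg e⟩, zero_mul]
  have := (h ((4 * N * x : ℝ) +ᵥ UpperHalfPlane.I) r).sub (h' ((4 * N * x : ℝ) +ᵥ UpperHalfPlane.I) r)
  rw [sub_self] at this
  refine hs_cg this fun n => ?_
  rw [Function.comp, if_pos (Nat.cast_nonneg n), Int.toNat_natCast, mul_assoc, ← ee_add, ← sub_mul]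
  congr 2
  simp
  field_simp
  ring

theorem ee_std (q : ℕ) [NeZero q] (n : ℕ) (ν : ZMod q) :
    ee (n * ν.val / q) = ZMod.stdAddChar (ν * (n : ZMod q)) := by
  simpa [mul_comm, -ZMod.natCast_val, ZMod.natCast_zmod_val] using! Gq.ee_std q (n * ν.val)

theorem En.n (h : En g c) (ν : ZMod p) : En (sl 3 (nn (4 * N * (ν.val : ℤ) / p)) g)
    fun n r => ZMod.stdAddChar (ν * (n : ZMod p)) * c n r := fun τ r => by
  simp only [sl, nn_j, _root_.one_zpow, one_smul]
  refine hs_cg (h _ r) fun n => ?_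
  have := N_ne (N := N)
  rw [← ee_std, nn_sm, mul_right_comm, ← ee_add, mul_comm]
  congr 2
  push_cast
  field_simp
  ring

theorem sq2_eq (h : p ≠ 2) {z : ZMod p} (hz : z ≠ 0) : sq2 p z = qc p z * P004Z.gs p := by
  rw [sq2, Gq.sum_sq h fun y => ZMod.stdAddChar (z * y), ← Gq.qc_tw h]
  simp only [add_mul, one_mul, Finset.sum_add_distrib, mul_comm z]
  rw [AddChar.sum_mulShift _ (ZMod.isPrimitive_stdAddChar p), if_neg hz, Nat.cast_zero, add_zero]

theorem sum_psi (q : ℕ) [NeZero q] (z : ZMod q) :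
    ∑ ν : ZMod q, ZMod.stdAddChar (ν * z) = if z = 0 then (q : ℂ) else 0 := by
  rw [AddChar.sum_mulShift _ (ZMod.isPrimitive_stdAddChar q), ZMod.card]
  simp

theorem qc_G (h : p ≠ 2) : qc p (-1) * P004Z.gs p ^ 2 = p := by
  have P : p.Prime := Fact.out
  have := Gq.J_qc (p := p) (-1)
  rw [Gq.gs_sq (P.odd_of_ne_two h) P.squarefree, eps, this, ← mul_assoc, Int.cast_neg, Int.cast_one,
    Gq.qc_sq (neg_ne_zero.2 one_ne_zero), one_mul]

namespace Dt

variable (d : Dt N p σ u η)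
include d

theorem ne2 : p ≠ 2 := fun e => by
  have := d.hp.of_mul_right_left
  norm_num [e, Int.isCoprime_iff_gcd_eq_one] at this

theorem mul_iff (r s : AA N) : p * s = r ↔ s = (p : AA N)⁻¹ * r := by
  have : IsUnit (p : AA N) := (ZMod.isUnit_iff_coprime _ _).2
    (Nat.isCoprime_iff_coprime.1 (by exact_mod_cast d.hp))
  constructor <;> rintro rfl
  · rw [← mul_assoc, ZMod.inv_mul_of_unit _ this, one_mul]
  · rw [← mul_assoc, ZMod.mul_inv_of_unit _ this, one_mul]

theorem en_a (h : En g c) : En (HH N p σ (aa p) g) fun n r =>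
    η * p ^ 2 * if p ^ 2 ∣ n then c (n / p ^ 2) ((p : AA N)⁻¹ * r) else 0 := fun τ r => by
  have p0 : 0 < p ^ 2 := pow_pos (NeZero.pos p) 2
  simp only [HH, mv, mulVec, dotProduct, Ps_ai d.hp, d.mul_iff, ite_mul, zero_mul,
    Finset.sum_ite_eq', Finset.mem_univ, if_true, sl, Pi.smul_apply, smul_eq_mul, aa_j, d.rt]
  refine ((mul_right_injective₀ p0.ne').hasSum_iff fun n hn => ?_).1
    (hs_cg (((h _ _).mul_left _).mul_left _) fun n => ?_)
  · rw [if_neg fun ⟨k, e⟩ => hn ⟨k, e.symm⟩, mul_zero, zero_mul]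
  · rw [Function.comp, if_pos (dvd_mul_right _ _), Nat.mul_div_cancel_left _ p0, aa_sm,
      show ((p ^ 2 * n : ℕ) : ℂ) * τ = n * (p ^ 2 * τ) by push_cast; ring, _root_.inv_zpow', neg_neg,
      zpow_ofNat, ← sp_c]
    ring

theorem en_n (ν : ZMod p) : HH N p σ (nn (4 * N * (ν.val : ℤ) / p)) g =
    sq2 p (-ν) • sl 3 (nn (4 * N * (ν.val : ℤ) / p)) g := by
  funext τ
  rw [HH, d.ps_ni, mv, smul_mulVec, one_mulVec, Int.cast_natCast, ZMod.natCast_zmod_val]
  rfl

theorem ps_na (z : ℤ) : Ps N p σ (nn (4 * N * z : ℤ) * aa p) = Ps N p σ (aa p) := by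
  have := Ps_mul d.hp σ ⟨_, tp_a⟩ (nn_mem (4 * N * z)) (one_mem _)
  rw [mul_one, Rs_one, mul_one, Rs_nn d.sg] at this
  rw [this, show eQ N (u * (4 * N * z)) = fun _ => 1 from funext fun r => ?_, diagonal_one, one_mul]
  have := N_ne (N := N)
  rw [eQ, ← ee_int (u * z * r.val ^ 2)]
  congr 1
  push_cast
  field_simp

theorem en_b (h : En g c) :
    En (∑ b : ZMod (p ^ 2), HH N p σ ((aa p)⁻¹ * nn (4 * N * b.val : ℤ)) g) fun n r =>
    η * p * c (p ^ 2 * n) (p * r) := fun τ r => by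
  have p0 : 0 < p ^ 2 := pow_pos (NeZero.pos p) 2
  have m0 := N_ne (N := N)
  have p1 := p_ne (p := p)
  have s0 := ofReal_ne_zero.2 (sp_ne p)
  have k : ∀ b : ZMod (p ^ 2), HasSum (fun n : ℕ => η * (p : ℂ)⁻¹ * (c n (p * r) *
      ee (n * τ / (4 * N * p ^ 2))) * ZMod.stdAddChar (b * (n : ZMod (p ^ 2))))
      (HH N p σ ((aa p)⁻¹ * nn (4 * N * b.val : ℤ)) g τ r) := fun b => by
    rw [HH, _root_.mul_inv_rev, inv_inv, nn_inv, ← Int.cast_neg, ← mul_neg, d.ps_na]
    simp only [mv, mulVec, dotProduct, Ps_a d.hp, ite_mul, zero_mul,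
      Finset.sum_ite_eq, Finset.mem_univ, if_true, sl, Pi.smul_apply, smul_eq_mul, Mp.mul_j, ai_j,
      nn_j, mul_one, d.rt]
    refine hs_cg (((h _ _).mul_left _).mul_left _) fun n => ?_
    rw [Mp.mul_g, mul_smul, Mp.inv_g, ai_sm, nn_sm, ← ee_std, mul_assoc, mul_assoc (c _ _), ← ee_add,
      _root_.zpow_neg, zpow_ofNat, ← mul_assoc, ← mul_assoc, ← mul_assoc]
    congr 2
    · rw [← sp_c]
      field_simp
    · push_cast
      field_simp
  have := hasSum_sum fun b (_ : b ∈ Finset.univ) => k b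
  simp only [← Finset.mul_sum, sum_psi, ZMod.natCast_eq_zero_iff] at this
  rw [Finset.sum_apply, Finset.sum_apply]
  refine hs_cg (((mul_right_injective₀ p0.ne').hasSum_iff fun n hn => ?_).2 this) fun n => ?_
  · rw [if_neg fun ⟨k, e⟩ => hn ⟨k, e.symm⟩, mul_zero]
  · rw [Function.comp, if_pos (dvd_mul_right _ _),
      show ((p ^ 2 * n : ℕ) : ℂ) * τ / (4 * N * p ^ 2) = n * τ / (4 * N) by push_cast; field_simp]
    push_cast
    field_simp

/-- **the expansion** -/
theorem en (h : En g c) : En (TH N p σ g) fun n r => p * (η * c (p ^ 2 * n) (p * r) +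
    (qc p n + 1) * c n r +
      η * p * if p ^ 2 ∣ n then c (n / p ^ 2) ((p : AA N)⁻¹ * r) else 0) := by
  simp only [TH, Fintype.sum_sum_type, Fintype.sum_unique, dl, d.en_n]
  refine ((d.en_a h).add ((En.sum fun ν => (h.n ν).smul _).add (d.en_b h))).cg fun n r => ?_
  have : ∑ ν : ZMod p, sq2 p (-ν) * ZMod.stdAddChar (ν * (n : ZMod p)) = p * (qc p n + 1) := by
    simp only [sq2, Finset.sum_mul, ← AddChar.map_add_eq_mul, neg_mul, ← mul_neg, ← mul_add]
    rw [Finset.sum_comm]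
    simp only [sum_psi, neg_add_eq_zero]
    rw [Gq.sum_sq d.ne2 fun y => if y = n then (p : ℂ) else 0]
    simp [mul_comm]
  simp only [Pi.add_apply, Finset.sum_apply, Pi.smul_apply, smul_eq_mul, ← mul_assoc,
    ← Finset.sum_mul, this]
  ring

/-- **forms with many vanishing coefficients** -/
theorem van (hg : Md N u 3 g) (h : En g c) {e : ℂ} (he : e * e = 1)
    (hv : ∀ (n : ℕ) r, qc p n * (qc p n - e) * c n r = 0) (n : ℕ) (r : AA N) :
    (η * p * if p ^ 2 ∣ n then c (n / p ^ 2) ((p : AA N)⁻¹ * r) else 0) =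
      (e - qc p n) * c n r := by
  have h2 := d.ne2
  have p1 := p_ne (p := p)
  have G := qc_G h2
  have qn : ∀ y : ZMod p, qc p (-y) = qc p (-1) * qc p y := fun y => by rw [← Gq.qc_mul, neg_one_mul]
  have q0 : ∀ y : ZMod p, qc p y * qc p y = 1 - if y = 0 then 1 else 0 := fun y => by
    split_ifs with k
    · simp [k, Gq.qc_zero]
    · rw [Gq.qc_sq k, sub_zero]
  have tw : ∀ n : ZMod p, ∑ ν, qc p ν * ZMod.stdAddChar (ν * n) = qc p n * P004Z.gs p :=
    fun n => by simpa only [mul_comm n] using Gq.qc_tw h2 n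
  obtain ⟨w, hw⟩ : ∃ w : ZMod p, 4 * N = w := ⟨_, rfl⟩
  have w0 : w ≠ 0 := fun k => by
    have := (ZMod.intCast_zmod_eq_zero_iff_dvd (4 * N) p).1 (by exact_mod_cast hw.trans k)
    exact (Nat.prime_iff_prime_int.1 Fact.out).not_unit ((cop4 d.hp).symm.isUnit_of_dvd this)
  let a : ZMod p → ℂ := fun ν => (if ν = 0 then (p : ℂ) else 0) - 1 - e * qc p (-ν) * P004Z.gs p
  let φ : ZMod p → ZMod p := fun ν => -(w ^ 2 * ν)⁻¹
  have h1 : ∑ ν, a (φ ν) • sl 3 (nn (4 * N * ((φ ν).val : ℤ) / p)) g = 0 := by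
    rw [(Function.Involutive.bijective (f := φ) fun ν => by
      simp [φ, mul_right_comm _ ν, w0]).sum_comp
      fun ν => a ν • sl 3 (nn (4 * N * (ν.val : ℤ) / p)) g]
    refine (En.sum fun ν => (h.n ν).smul (a ν)).ext fun τ r => hs_cg hasSum_zero fun n => ?_
    have : ∀ ν y : ZMod p, a ν * ZMod.stdAddChar (ν * y) = (if ν = 0 then (p : ℂ) else 0) -
        ZMod.stdAddChar (ν * y) - e * qc p (-1) * P004Z.gs p * (qc p ν * ZMod.stdAddChar (ν * y)) :=
      fun ν y => by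
        simp only [a, qn ν]
        split_ifs with k
        · simp [k, Gq.qc_zero]
        · ring
    simp only [Finset.sum_apply, Pi.smul_apply, smul_eq_mul, ← mul_assoc (a _), ← Finset.sum_mul,
      this, Finset.sum_sub_distrib, sum_psi, ← Finset.mul_sum, tw, Finset.sum_ite_eq',
      Finset.mem_univ, if_true]
    have := q0 n
    refine mul_eq_zero_of_left ?_ _
    split_ifs at this ⊢ <;>
      linear_combination p * hv n r - p * c n r * this - e * qc p n * c n r * G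
  have h3 : ∀ z : ℤ, HH N p σ (nn (4 * N * z / p) * ((aa p)⁻¹ * ss)) g =
      mv (Rs N σ ss⁻¹ * Ps N p σ (aa p)) (sl 3 ((aa p)⁻¹ * ss) (sl 3 (nn (4 * N * z / p)) g)) :=
    fun z => by
      have := Ps_mul d.hp σ (Dp.gd d.hp (Dp.mul' ⟨_, _, _, _, im_a⟩ (nn_mem (4 * N * (-(p * z))))))
        (inv_mem ss_mem) (one_mem _)
      rw [mul_one, Rs_one, mul_one, d.ps_na] at this
      rw [HH, sl_mul, _root_.mul_inv_rev, _root_.mul_inv_rev, inv_inv, nn_inv, mul_assoc, aa_nn,
        ← this]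
      congr 5
      have := p_r (p := p)
      push_cast
      field_simp
  have im : ∀ z : ℤ, Im p (nn (4 * N * z / p) * ((aa p)⁻¹ * ss)) (p * (4 * N * z)) (-1) (p ^ 2) 0 :=
    fun z => by
      have := p_r (p := p)
      constructor <;> simp <;> field_simp
  have h4 : ∀ ν : ZMod p, a (φ ν) • HH N p σ (nn (4 * N * ((φ ν).val : ℤ) / p) * ((aa p)⁻¹ * ss)) g =
      (if ν = 0 then (p - 1 : ℂ) else 0) • HH N p σ (aa p) g + ((-1 - e * qc p ν * P004Z.gs p) *
        (qc p (-ν) * P004Z.gs p)) • sl 3 (nn (4 * N * (ν.val : ℤ) / p)) g := fun ν => by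
    split_ifs with k
    · rw [d.hh_eq hg ⟨_, _, _, _, im_a⟩ (((im _).crit im_a).2 (by simp [φ, k]))]
      simp [a, φ, k, Gq.qc_zero]
    · have k1 : w ^ 2 * ν ≠ 0 := mul_ne_zero (pow_ne_zero 2 w0) k
      have k2 : φ ν ≠ 0 := neg_ne_zero.2 (inv_ne_zero k1)
      obtain ⟨t, ht⟩ := (ZMod.intCast_zmod_eq_zero_iff_dvd
        (4 * N * (φ ν).val * (4 * N * ν.val) + 1) p).1 (by
          push_cast
          simp only [ZMod.natCast_zmod_val, φ, hw]
          field_simp
          ring)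
      rw [d.hh_eq hg ⟨_, _, _, _, im_n _⟩ (((im _).crit (im_n (N := N) ν.val)).2 ⟨⟨4 * N * (φ ν).val, by ring⟩,
        ⟨-t, by linear_combination -p * ht⟩, ⟨p, by ring⟩, -(4 * N * ν.val), by ring⟩), d.en_n,
        sq2_eq h2 (neg_ne_zero.2 k), zero_smul, zero_add, smul_smul]
      congr 2
      have : qc p (-φ ν) * qc p ν = 1 := by
        rw [← Gq.qc_mul, ← Gq.qc_sq (inv_ne_zero w0), ← Gq.qc_mul]
        congr 1
        simp only [φ]
        field_simp
      simp only [a, if_neg k2]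
      linear_combination e * P004Z.gs p * (qc p (-φ ν) * Gq.qc_sq k - qc p ν * this)
  have h5 := congrArg (fun F => mv (Rs N σ ss⁻¹ * Ps N p σ (aa p)) (sl 3 ((aa p)⁻¹ * ss) F)) h1
  simp only [sl_sum, mv_sum, ← h3, h4, Finset.sum_add_distrib, ← Finset.sum_smul] at h5
  have h6 := ((d.en_a h).smul (∑ ν : ZMod p, if ν = 0 then (p - 1 : ℂ) else 0)).add
    (En.sum fun ν => (h.n ν).smul ((-1 - e * qc p ν * P004Z.gs p) * (qc p (-ν) * P004Z.gs p)))
  rw [h5] at h6
  have h7 := congrFun (congrFun (h6.uq (c' := 0) fun τ r => by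
    simpa [mv, sl] using hasSum_zero) n) r
  have h8 : ∑ ν : ZMod p, (-1 - e * qc p ν * P004Z.gs p) * (qc p (-ν) * P004Z.gs p) *
      ZMod.stdAddChar (ν * (n : ZMod p)) = -(p * qc p n) - e * p * (p * (1 - qc p n * qc p n) - 1) := by
    have : ∀ ν n : ZMod p, (-1 - e * qc p ν * P004Z.gs p) * (qc p (-ν) * P004Z.gs p) *
        ZMod.stdAddChar (ν * n) = -(qc p (-1) * P004Z.gs p) * (qc p ν * ZMod.stdAddChar (ν * n)) -
          e * p * (ZMod.stdAddChar (ν * n) - if ν = 0 then 1 else 0) := fun ν n => by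
      have := q0 ν
      rw [qn]
      split_ifs at this ⊢ with k
      · simp [k, Gq.qc_zero]
      · linear_combination -e * ZMod.stdAddChar (ν * n) * (p * this + qc p ν * qc p ν * G)
    simp only [this, Finset.sum_sub_distrib, ← Finset.mul_sum, tw, sum_psi, q0,
      Finset.sum_ite_eq', Finset.mem_univ, if_true]
    split_ifs <;> linear_combination -qc p n * G
  simp only [Pi.add_apply, Finset.sum_apply, Pi.smul_apply, smul_eq_mul,
    ← mul_assoc _ (ZMod.stdAddChar _), ← Finset.sum_mul, h8, Finset.sum_ite_eq', Finset.mem_univ, if_true, Pi.zero_apply] at h7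
  have p2 : (p - 1 : ℂ) ≠ 0 := sub_ne_zero.2 (Nat.cast_ne_one.2 (Fact.out : p.Prime).ne_one)
  refine mul_left_cancel₀ (mul_ne_zero p1 p2) ?_
  linear_combination h7 - e * p ^ 2 * hv n r - p ^ 2 * qc p n * c n r * he

end Dt

end Vale.Agent.P004Z.W
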