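import Vale.Agent.P004Z.W.Co
import Vale.Agent.P004Z.W2.Wt

/-!
# P004Z, block G1: the Hecke operator on functions, modularity and self adjointness
-/

set_option autoImplicit false
set_option linter.all false

open UpperHalfPlane hiding I
open Complex Matrix MeasureTheory
open scoped MatrixGroups Real ComplexConjugate Modular

noncomputable section

namespace Vale.Agent.P004Z.W

variable (N p : ℕ) [NeZero N] [Fact p.Prime] (σ : ℂ →+* ℂ)

/-- the term of a coset -/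
def HH (x : Mp) (g : ℍ → AA N → ℂ) : ℍ → AA N → ℂ := mv (Ps N p σ x⁻¹) (sl 3 x g)

/-- the Hecke operator -/
def TH (g : ℍ → AA N → ℂ) : ℍ → AA N → ℂ := ∑ i, HH N p σ (dl N p i) g

/-- the data of the Galois conjugation -/
structure Dt (u : ℤ) (η : ℂ) : Prop where
  hp : IsCoprime (p : ℤ) (2 * N)
  hu : IsCoprime u (2 * N)
  sg : Sg N u σ
  rt : σ (√(p : ℝ) : ℝ) = η * (√(p : ℝ) : ℝ)
  et : η = 1 ∨ η = -1
  sq : ∀ z, σ (sq2 p z) = sq2 p z

variable {N p σ}

/-- measurable, with bounded invariant norm -/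
def Bd (F : ℍ → AA N → ℂ) : Prop :=
  (∀ r, Measurable fun τ => F τ r) ∧ ∃ C, ∀ τ r, ‖F τ r‖ * τ.im ^ (3 / 4 : ℝ) ≤ C

variable {u : ℤ} {η : ℂ} {g h : ℍ → AA N → ℂ} {x γ γ' : Mp}

theorem sl_sum {ι : Type} [Fintype ι] (k : ℤ) (x : Mp) (a : ι → ℂ) (F : ι → ℍ → AA N → ℂ) :
    sl k x (∑ i, a i • F i) = ∑ i, a i • sl k x (F i) := by
  funext τ
  simp only [sl, Finset.sum_apply, Pi.smul_apply, Finset.smul_sum, smul_comm (a _)]

theorem mv_sum {ι : Type} [Fintype ι] (M : Matrix (AA N) (AA N) ℂ) (a : ι → ℂ)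
    (F : ι → ℍ → AA N → ℂ) : mv M (∑ i, a i • F i) = ∑ i, a i • mv M (F i) := by
  funext τ
  simp only [mv, Finset.sum_apply, Pi.smul_apply, mulVec_sum, mulVec_smul]

theorem im_j (x : Mp) (τ : ℍ) (k : ℕ) (s : ℝ) (e : 4 * s = k) :
    (x.g • τ).im ^ s = τ.im ^ s / ‖x.j τ‖ ^ k := by
  rw [im_sm, ← x.sq, normSq_eq_norm_sq, norm_pow, ← pow_mul, Real.div_rpow τ.im_pos.le (by positivity),
    ← Real.rpow_natCast, ← Real.rpow_mul (norm_nonneg _), ← Real.rpow_natCast, ← e]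
  norm_num

theorem den_sl (x : Mp) (τ : ℍ) : den N 3 (sl 3 x g) (sl 3 x h) τ = den N 3 g h (x.g • τ) := by
  have := x.j_ne τ
  have h0 : conj (x.j τ) ≠ 0 := (map_ne_zero _).2 this
  rw [den, den, im_j x τ 6 _ (by norm_num), show 6 = 2 * 3 from rfl, pow_mul, ofReal_div, ofReal_pow,
    ofReal_pow, ← mul_conj', Finset.sum_mul, Finset.sum_mul]
  refine Finset.sum_congr rfl fun r _ => ?_
  simp only [sl, Pi.smul_apply, smul_eq_mul, map_mul, map_inv₀, map_pow, _root_.zpow_neg, zpow_ofNat]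
  field_simp

theorem den_mv (M : Matrix (AA N) (AA N) ℂ) (τ : ℍ) :
    den N 3 (mv M g) h τ = den N 3 g (mv Mᴴ h) τ := by
  simp only [den, mv, mulVec, dotProduct, Finset.sum_mul, Finset.mul_sum, map_sum, map_mul,
    conjTranspose_apply, star_def, conj_conj]
  rw [Finset.sum_comm]
  exact Finset.sum_congr rfl fun _ _ => Finset.sum_congr rfl fun _ _ => by ring

theorem Bd.hh (b : Bd g) (x : Mp) : Bd (HH N p σ x g) := by
  obtain ⟨m, C, b⟩ := b
  refine ⟨fun r => Finset.measurable_sum _ fun s _ => ((x.cont.measurable.pow_const _).mul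
    ((m s).comp (cont_sm _).measurable)).const_mul _, (∑ r, ∑ s, ‖Ps N p σ x⁻¹ r s‖) * C,
    fun τ r => ?_⟩
  have p0 : 0 ≤ τ.im ^ (3 / 4 : ℝ) := Real.rpow_nonneg τ.im_pos.le _
  refine (mul_le_mul_of_nonneg_right (norm_sum_le _ _) p0).trans (le_trans ?_
    (mul_le_mul_of_nonneg_right (Finset.single_le_sum (f := fun r => ∑ s, ‖Ps N p σ x⁻¹ r s‖)
      (fun _ _ => by positivity) (Finset.mem_univ r)) ((mul_nonneg (norm_nonneg _) p0).trans (b τ r))))
  rw [Finset.sum_mul, Finset.sum_mul]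
  refine Finset.sum_le_sum fun s _ => ?_
  rw [norm_mul, mul_assoc]
  refine mul_le_mul_of_nonneg_left ((le_of_eq ?_).trans (b (x.g • τ) s)) (norm_nonneg _)
  rw [im_j x τ 3 _ (by norm_num), sl, Pi.smul_apply, norm_smul, norm_zpow, _root_.zpow_neg, zpow_ofNat]
  ring

theorem Bd.meas (b : Bd g) (b' : Bd h) : Measurable (den N 3 g h) :=
  (Finset.measurable_sum _ fun r _ => (b.1 r).mul (continuous_conj.measurable.comp (b'.1 r))).mul
    (measurable_ofReal.comp (UpperHalfPlane.continuous_im.measurable.pow_const _))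

theorem Bd.int (b : Bd g) (b' : Bd h) : IntegrableOn (den N 3 g h) 𝒟 := by
  have : IsFiniteMeasure (volume.restrict (𝒟 : Set ℍ)) := ⟨by simpa using P004N.T3.fd_finite⟩
  obtain ⟨C, k⟩ := b.2
  obtain ⟨D, l⟩ := b'.2
  refine Integrable.of_bound (b.meas b').aestronglyMeasurable (∑ r : AA N, C * D)
    (.of_forall fun τ => ?_)
  have p0 : 0 ≤ τ.im ^ (3 / 4 : ℝ) := Real.rpow_nonneg τ.im_pos.le _
  rw [den, Finset.sum_mul]
  refine norm_sum_le_of_le _ fun r _ => le_trans (le_of_eq ?_) (mul_le_mul (k τ r) (l τ r)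
    (by positivity) (le_trans (by positivity) (k τ r)))
  rw [norm_mul, norm_mul, norm_conj, norm_real, Real.norm_of_nonneg (Real.rpow_nonneg τ.im_pos.le _),
    mul_mul_mul_comm, ← Real.rpow_add τ.im_pos]
  norm_num

namespace Dt

variable (d : Dt N p σ u η)
include d

theorem hh_l (hg : Md N u 3 g) (hx : Dp p x) (h : γ ∈ Gm) : HH N p σ (γ * x) g = HH N p σ x g := by
  have := Ps_mul d.hp σ (hx.inv.gd d.hp) (one_mem _) (inv_mem h)
  rw [one_mul, Rs_one, one_mul] at this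
  rw [HH, sl_mul, hg.sl d.hu d.sg h, sl_mv, mv_mv, _root_.mul_inv_rev, this, mul_assoc, Rs_inv h,
    mul_one, HH]

theorem hh_eq (hg : Md N u 3 g) {y : Mp} (hy : Dp p y) (h : x * y⁻¹ ∈ Gm) :
    HH N p σ x g = HH N p σ y g := by
  rw [← d.hh_l hg hy h, inv_mul_cancel_right]

theorem hh_r (hx : Dp p x) (h : γ ∈ Gm) :
    sl 3 γ (HH N p σ x g) = mv (Rs N σ γ) (HH N p σ (x * γ) g) := by
  have := Ps_mul d.hp σ (hx.inv.gd d.hp) (inv_mem h) (one_mem _)
  rw [mul_one, Rs_one, mul_one] at this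
  rw [HH, HH, sl_mv, mv_mv, _root_.mul_inv_rev, this, ← mul_assoc, (mul_eq_one_comm (a := Rs N σ γ⁻¹)).1 (Rs_inv h),
    one_mul, sl_mul]

/-- **modularity** -/
theorem md (hg : Md N u 3 g) : Md N u 3 (TH N p σ g) := md_of d.hu d.sg fun γ h => by
  choose f hf using fun i => ex_dl d.hp ((dp_dl (N := N) (p := p) i).mul h)
  have inj : Function.Injective f := fun i j e => uq_dl d.hp (by
    have := mul_mem (hf i) (inv_mem (hf j))
    rw [e] at this
    convert this using 1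
    group)
  have h1 := sl_sum 3 γ 1 fun i => HH N p σ (dl N p i) g
  have h2 := mv_sum (Rs N σ γ) 1 fun i => HH N p σ (dl N p i) g
  simp only [Pi.one_apply, one_smul] at h1 h2
  rw [TH, h1, h2]
  exact Fintype.sum_bijective f (Finite.injective_iff_bijective.1 inj) _ _ fun i => by
    rw [d.hh_r (dp_dl i) h, d.hh_eq hg (dp_dl _) (hf i)]

theorem adj_mul (hx : Dp p x) (e : Ps N p σ x⁻¹ = (Ps N p σ x)ᴴ) (h : γ ∈ Gm) (h' : γ' ∈ Gm) :
    Ps N p σ (γ * x * γ')⁻¹ = (Ps N p σ (γ * x * γ'))ᴴ := by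
  rw [_root_.mul_inv_rev, _root_.mul_inv_rev, ← mul_assoc, Ps_mul d.hp σ (hx.gd d.hp) h h',
    Ps_mul d.hp σ (hx.inv.gd d.hp) (inv_mem h') (inv_mem h), e, Rs_un d.hu d.sg h,
    Rs_un d.hu d.sg h', conjTranspose_mul, conjTranspose_mul, mul_assoc]

theorem ps_ni (z : ℤ) : Ps N p σ (nn (4 * N * z / p))⁻¹ = sq2 p (-z) • 1 := by
  simpa [nn_inv, neg_div, d.sq] using Ps_n d.hp σ (-z)

theorem adj (hx : Dp p x) : Ps N p σ x⁻¹ = (Ps N p σ x)ᴴ := by
  obtain ⟨i, e⟩ := ex_dl d.hp hx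
  have a : Ps N p σ (aa p)⁻¹ = (Ps N p σ (aa p))ᴴ := by
    ext r s
    rw [conjTranspose_apply, Ps_a d.hp, Ps_ai d.hp, d.rt]
    rcases d.et with rfl | rfl <;> split_ifs <;> simp
  have k : Ps N p σ (dl N p i)⁻¹ = (Ps N p σ (dl N p i))ᴴ := by
    rcases i with _ | ν | b
    · exact a
    · rw [dl, d.ps_ni, Ps_n d.hp, d.sq, conjTranspose_smul, conjTranspose_one, sq2, sq2, star_sum]
      congr 1
      refine Finset.sum_congr rfl fun y _ => ?_
      rw [neg_mul, AddChar.map_neg_eq_inv, star_def, ← inv_eq_conj (AddChar.norm_apply _ _)]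
    · simpa [dl] using d.adj_mul (Dp.inv ⟨_, _, _, _, im_a⟩)
        (by rw [a, inv_inv, conjTranspose_conjTranspose]) (one_mem _) (nn_mem (4 * N * b.val))
  simpa using d.adj_mul (dp_dl i) k e (one_mem _)

theorem den_hh (hx : Dp p x) (τ : ℍ) :
    den N 3 (HH N p σ x⁻¹ g) h (x.g • τ) = den N 3 g (HH N p σ x h) τ := by
  rw [← den_sl, HH, sl_mv, ← sl_mul, inv_mul_cancel, sl_one, den_mv, inv_inv, ← d.adj hx, HH]

/-- **self adjointness** -/
theorem self (hg : Md N u 3 g) (hh : Md N u 3 h) (b : Bd g) (b' : Bd h) :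
    ∫ τ in 𝒟, den N 3 (TH N p σ g) h τ = ∫ τ in 𝒟, den N 3 g (TH N p σ h) τ := by
  have w : W2.Wt ⊤ ((𝒟 : Set ℍ).indicator 1) := ⟨measurable_one.indicator W2.meas_fd,
    P004.H26.H86.two_of.mono fun z k => by
      rw [← k]
      exact Subgroup.topEquiv.toEquiv.tsum_eq fun γ => (𝒟 : Set ℍ).indicator 1 (γ • z)⟩
  choose L hL using ex_lift
  have mL : ∀ γ, L γ ∈ Gm := fun γ => ⟨γ, (hL γ).symm⟩
  let X : (⊤ : Subgroup SL(2, ℤ)) × Ix p → Mp := fun q => L q.1 * dl N p q.2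
  have hX : ∀ q, Dp p (X q) := fun q => (dp_dl _).mul' (mL _)
  have Xg : ∀ q, (X q).g = zr q.1 * (dl N p q.2).g := fun q => by rw [← hL]; rfl
  have inj : ∀ q q', (X q).g = (X q').g → q = q' := fun q q' e => by
    rw [Xg, Xg] at e
    have i : q.2 = q'.2 := uq_dl d.hp ⟨q.1.1⁻¹ * q'.1, by
      rw [map_mul, map_inv, inv_mul_eq_iff_eq_mul, map_mul, map_inv, ← mul_assoc]
      exact eq_mul_inv_of_mul_eq e.symm⟩
    rw [i, mul_left_inj] at e
    exact Prod.ext (Subtype.ext (Subtype.ext (Matrix.ext fun i j => by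
      exact_mod_cast (zr_e _ i j).symm.trans ((congrArg (· i j) e).trans (zr_e _ i j))))) i
  choose κ hκ using fun q => show ∃ q', (X q').g = (X q).g⁻¹ by
    obtain ⟨j, γ, e⟩ := ex_dl d.hp (hX q).inv
    exact ⟨(⟨γ, trivial⟩, j), by rw [Xg, e]; exact inv_mul_cancel_right _ _⟩
  have := w.swap (a := fun q => (X q).g) (Equiv.refl _) (fun γ i z => by
      show (X (γ, i)).g • z = γ.1 • (X (1, i)).g • z
      rw [Xg, Xg, mul_smul, zr_sm, OneMemClass.coe_one, map_one, one_mul])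
    (Function.Involutive.toPerm κ fun q => inj _ _ (by rw [hκ, hκ, inv_inv])) (fun q z => by
      show (X (κ q)).g • (X q).g • z = z
      rw [hκ, inv_smul_smul])
    (F := fun q => den N 3 (HH N p σ (dl N p q.2) g) h)
    (F' := fun q => den N 3 g (HH N p σ (dl N p q.2) h))
    (fun q => (b.hh _).meas b') (fun q => b.meas (b'.hh _)) (fun _ _ => rfl) (fun _ _ => rfl)
    (fun q z => by
      show den N 3 (HH N p σ (dl N p (κ q).2) g) h ((X q).g • z) = _
      rw [← d.hh_l hg (dp_dl _) (mL (κ q).1), ← d.hh_l hh (dp_dl _) (mL q.1), ← d.den_hh (hX q),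
        d.hh_eq hg (hX q).inv ⟨1, by
          rw [map_one, map_mul, map_inv]
          exact (mul_inv_eq_one.2 (hκ q)).symm⟩])
    (fun q => withDensity_indicator_one W2.meas_fd ▸ (b.hh _).int b')
    fun q => withDensity_indicator_one W2.meas_fd ▸ b.int (b'.hh _)
  rw [withDensity_indicator_one W2.meas_fd, ← integral_finsetSum _ fun i _ => (b.hh _).int b',
    ← integral_finsetSum _ fun i _ => b.int (b'.hh _)] at this
  convert this using 3 with τ τ <;>
    simp only [den, TH, Finset.sum_apply, Finset.sum_mul, map_sum, Finset.mul_sum] <;>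
    exact Finset.sum_comm

end Dt

end Vale.Agent.P004Z.W
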