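import Vale.Agent.P004Z.W.Bas

/-!
# P004Z, block G1: the metaplectic group and its action
-/

set_option autoImplicit false
set_option linter.all false

open UpperHalfPlane hiding I
open Complex Matrix
open scoped MatrixGroups Real

noncomputable section

namespace Vale.Agent.P004Z.W

/-- `c τ + d` -/
def dn (g : SL(2, ℝ)) (τ : ℍ) : ℂ := (g 1 0 : ℝ) * (τ : ℂ) + (g 1 1 : ℝ)

theorem dn_ne (g : SL(2, ℝ)) (τ : ℍ) : dn g τ ≠ 0 := denom_ne_zero (g : GL (Fin 2) ℝ) τ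

theorem coe_sm (g : SL(2, ℝ)) (τ : ℍ) :
    ((g • τ : ℍ) : ℂ) = ((g 0 0 : ℝ) * (τ : ℂ) + (g 0 1 : ℝ)) / dn g τ := by
  rw [coe_specialLinearGroup_apply]
  rfl

theorem mul_e {R : Type} [CommRing R] (g h : SL(2, R)) (i j : Fin 2) :
    (g * h) i j = g i 0 * h 0 j + g i 1 * h 1 j := by
  simp [Matrix.mul_apply, Fin.sum_univ_two]

theorem dn_mul (g h : SL(2, ℝ)) (τ : ℍ) : dn (g * h) τ = dn g (h • τ) * dn h τ := by
  rw [dn, dn, coe_sm, add_mul, mul_assoc, div_mul_cancel₀ _ (dn_ne h τ), dn, mul_e, mul_e]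
  push_cast
  ring

theorem dn_one (τ : ℍ) : dn 1 τ = 1 := by simp [dn]

theorem cont_sm (g : SL(2, ℝ)) : Continuous fun τ : ℍ => g • τ :=
  continuous_const_smul (g : GL (Fin 2) ℝ)

theorem im_sm (g : SL(2, ℝ)) (τ : ℍ) : (g • τ).im = τ.im / normSq (dn g τ) := by
  have := im_smul_eq_div_normSq (g : GL (Fin 2) ℝ) τ
  simpa using! this

/-- the metaplectic group -/
@[ext] structure Mp where
  g : SL(2, ℝ)
  j : ℍ → ℂ
  sq : ∀ τ, j τ ^ 2 = dn g τ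
  cont : Continuous j

namespace Mp

theorem j_ne (x : Mp) (τ : ℍ) : x.j τ ≠ 0 := fun e => dn_ne x.g τ (by rw [← x.sq, e, zero_pow two_ne_zero])

instance : Mul Mp := ⟨fun x y => ⟨x.g * y.g, fun τ => x.j (y.g • τ) * y.j τ,
  fun τ => by rw [mul_pow, x.sq, y.sq, dn_mul], (x.cont.comp (cont_sm _)).mul y.cont⟩⟩

instance : One Mp := ⟨1, fun _ => 1, fun τ => by rw [one_pow, dn_one], continuous_const⟩

instance : Inv Mp := ⟨fun x => ⟨x.g⁻¹, fun τ => (x.j (x.g⁻¹ • τ))⁻¹, fun τ => by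
  rw [inv_pow, x.sq]
  exact inv_eq_of_mul_eq_one_right (by rw [← dn_mul, mul_inv_cancel, dn_one]),
  (x.cont.comp (cont_sm _)).inv₀ fun _ => x.j_ne _⟩⟩

@[simp] theorem mul_g (x y : Mp) : (x * y).g = x.g * y.g := rfl
@[simp] theorem mul_j (x y : Mp) (τ : ℍ) : (x * y).j τ = x.j (y.g • τ) * y.j τ := rfl
@[simp] theorem one_g : (1 : Mp).g = 1 := rfl
@[simp] theorem one_j (τ : ℍ) : (1 : Mp).j τ = 1 := rfl
@[simp] theorem inv_g (x : Mp) : x⁻¹.g = x.g⁻¹ := rfl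
theorem inv_j (x : Mp) (τ : ℍ) : x⁻¹.j τ = (x.j (x.g⁻¹ • τ))⁻¹ := rfl

instance : Group Mp := Group.ofLeftAxioms
  (fun x y z => Mp.ext (mul_assoc _ _ _) (funext fun τ => by simp only [mul_j, mul_g, mul_smul, mul_assoc]))
  (fun x => Mp.ext (one_mul _) (funext fun τ => one_mul _))
  (fun x => Mp.ext (inv_mul_cancel _) (funext fun τ => by
    rw [mul_j, inv_j, inv_smul_smul, inv_mul_cancel₀ (x.j_ne τ), one_j]))

end Mp

/-- the projection -/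
def pj : Mp →* SL(2, ℝ) := ⟨⟨Mp.g, rfl⟩, fun _ _ => rfl⟩

/-- integral matrices as real matrices -/
def zr : SL(2, ℤ) →* SL(2, ℝ) := SpecialLinearGroup.map (Int.castRingHom ℝ)

theorem zr_e (γ : SL(2, ℤ)) (i j : Fin 2) : zr γ i j = (γ i j : ℤ) := rfl

theorem zr_sm (γ : SL(2, ℤ)) (τ : ℍ) : zr γ • τ = γ • τ := UpperHalfPlane.ext (by
  rw [coe_specialLinearGroup_apply, coe_specialLinearGroup_apply]
  rfl)

/-- the integral points -/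
def Gm : Subgroup Mp := zr.range.comap pj

theorem mem_Gm {x : Mp} : x ∈ Gm ↔ ∀ i j, ∃ z : ℤ, x.g i j = z := by
  refine ⟨fun ⟨γ, h⟩ i j => ⟨γ i j, by rw [← zr_e, h]; rfl⟩, fun h => ?_⟩
  choose z hz using h
  refine ⟨⟨of z, ?_⟩, Subtype.ext (Matrix.ext fun i j => (hz i j).symm)⟩
  have := x.g.det_coe
  rw [det_fin_two] at this ⊢
  simp only [hz] at this
  exact_mod_cast this

/-- translations -/
def nn (t : ℝ) : Mp :=
  ⟨⟨!![1, t; 0, 1], by simp⟩, fun _ => 1, fun τ => by simp [dn], continuous_const⟩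

/-- dilations by `c ^ 4` -/
def mm (c : ℝ) (hc : c ≠ 0) : Mp :=
  ⟨⟨!![c ^ 2, 0; 0, (c ^ 2)⁻¹], by simp [hc]⟩, fun _ => (c : ℂ)⁻¹, fun τ => by simp [dn],
    continuous_const⟩

theorem cont_rt : Continuous rt := continuous_iff_continuousAt.2 fun τ =>
  (continuousAt_cpow_const (.inr τ.im_pos.ne')).comp continuous_coe.continuousAt

theorem zS : zr ModularGroup.S 0 0 = 0 ∧ zr ModularGroup.S 0 1 = -1 ∧
    zr ModularGroup.S 1 0 = 1 ∧ zr ModularGroup.S 1 1 = 0 :=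
  ⟨Int.cast_zero, (Int.cast_neg 1).trans (congrArg _ Int.cast_one), Int.cast_one, Int.cast_zero⟩

/-- the inversion -/
def ss : Mp := ⟨zr ModularGroup.S, rt, fun τ => by simp [rt_sq, dn, zS], cont_rt⟩

@[simp] theorem ss00 : ss.g 0 0 = 0 := zS.1
@[simp] theorem ss01 : ss.g 0 1 = -1 := zS.2.1
@[simp] theorem ss10 : ss.g 1 0 = 1 := zS.2.2.1
@[simp] theorem ss11 : ss.g 1 1 = 0 := zS.2.2.2
@[simp] theorem nn00 (t : ℝ) : (nn t).g 0 0 = 1 := rfl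
@[simp] theorem nn01 (t : ℝ) : (nn t).g 0 1 = t := rfl
@[simp] theorem nn10 (t : ℝ) : (nn t).g 1 0 = 0 := rfl
@[simp] theorem nn11 (t : ℝ) : (nn t).g 1 1 = 1 := rfl
@[simp] theorem nn_j (t : ℝ) (τ : ℍ) : (nn t).j τ = 1 := rfl
@[simp] theorem mm00 (c : ℝ) (hc : c ≠ 0) : (mm c hc).g 0 0 = c ^ 2 := rfl
@[simp] theorem mm01 (c : ℝ) (hc : c ≠ 0) : (mm c hc).g 0 1 = 0 := rfl
@[simp] theorem mm10 (c : ℝ) (hc : c ≠ 0) : (mm c hc).g 1 0 = 0 := rfl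
@[simp] theorem mm11 (c : ℝ) (hc : c ≠ 0) : (mm c hc).g 1 1 = (c ^ 2)⁻¹ := rfl
@[simp] theorem mm_j (c : ℝ) (hc : c ≠ 0) (τ : ℍ) : (mm c hc).j τ = (c : ℂ)⁻¹ := rfl

attribute [simp] mul_e

theorem inv_e {R : Type} [CommRing R] (g : SL(2, R)) : g⁻¹ 0 0 = g 1 1 ∧ g⁻¹ 0 1 = -g 0 1 ∧
    g⁻¹ 1 0 = -g 1 0 ∧ g⁻¹ 1 1 = g 0 0 := by
  rw [SpecialLinearGroup.SL2_inv_expl]
  exact ⟨rfl, rfl, rfl, rfl⟩

theorem det_e {R : Type} [CommRing R] (g : SL(2, R)) : g 0 0 * g 1 1 - g 0 1 * g 1 0 = 1 := by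
  have := g.det_coe
  rwa [det_fin_two] at this

theorem nn_sm (t : ℝ) (τ : ℍ) : (((nn t).g • τ : ℍ) : ℂ) = τ + t := by
  rw [coe_sm, dn]
  simp

theorem mm_sm (c : ℝ) (hc : c ≠ 0) (τ : ℍ) : (((mm c hc).g • τ : ℍ) : ℂ) = c ^ 4 * τ := by
  rw [coe_sm, dn]
  simp
  ring

theorem sl_ext {g h : SL(2, ℝ)} (a : g 0 0 = h 0 0) (b : g 0 1 = h 0 1) (c : g 1 0 = h 1 0)
    (d : g 1 1 = h 1 1) : g = h := by
  ext i j
  fin_cases i <;> fin_cases j <;> assumption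

theorem nn_add (s t : ℝ) : nn (s + t) = nn s * nn t :=
  Mp.ext (sl_ext (by simp) (by simp [add_comm]) (by simp) (by simp))
    (funext fun _ => (one_mul _).symm)

theorem nn_zero : nn 0 = 1 := Mp.ext (sl_ext rfl rfl rfl rfl) rfl

theorem nn_inv (t : ℝ) : (nn t)⁻¹ = nn (-t) :=
  inv_eq_of_mul_eq_one_right (by rw [← nn_add, add_neg_cancel, nn_zero])

theorem mm_inv (c : ℝ) (hc : c ≠ 0) : (mm c hc)⁻¹ = mm c⁻¹ (inv_ne_zero hc) :=
  inv_eq_of_mul_eq_one_right (Mp.ext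
    (sl_ext (by simp [hc]) (by simp) (by simp) (by simp [hc])) (funext fun _ => by simp [hc]))

theorem nn_one : (nn 1).g = zr ModularGroup.T :=
  sl_ext Int.cast_one.symm Int.cast_one.symm Int.cast_zero.symm Int.cast_one.symm

theorem ss_mem : ss ∈ Gm := ⟨_, rfl⟩

theorem nn_mem (z : ℤ) : nn z ∈ Gm := mem_Gm.2 fun i j => by
  fin_cases i <;> fin_cases j
  exacts [⟨1, Int.cast_one.symm⟩, ⟨z, rfl⟩, ⟨0, Int.cast_zero.symm⟩, ⟨1, Int.cast_one.symm⟩]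

theorem ss_pow : (ss * ss * (ss * ss)).g = 1 ∧ ∀ τ, (ss * ss * (ss * ss)).j τ = -1 := by
  refine ⟨?_, fun τ => ?_⟩
  · show zr _ * zr _ * (zr _ * zr _) = 1
    simp only [← map_mul]
    rw [show ModularGroup.S * ModularGroup.S * (ModularGroup.S * ModularGroup.S) = 1 by decide,
      map_one]
  · have : ∀ σ, (ss * ss).j σ = I := fun σ => by rw [← rt_S σ, ← zr_sm]; rfl
    rw [Mp.mul_j, this, this, I_mul_I]

/-- **induction** over the integral points -/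
theorem Gm_ind {P : Mp → Prop} (hS : P ss) (hT : P (nn 1)) (hm : ∀ a b, P a → P b → P (a * b))
    (hi : ∀ a, P a → P a⁻¹) {x : Mp} (hx : x ∈ Gm) : P x := by
  have h1 : P 1 := mul_inv_cancel ss ▸ hm _ _ hS (hi _ hS)
  obtain ⟨γ, hγ⟩ := hx
  obtain ⟨y, hy, e⟩ := sl_ind (P := fun γ => ∃ y, P y ∧ y.g = zr γ) ⟨_, hS, rfl⟩ ⟨_, hT, nn_one⟩
    ⟨1, h1, (map_one zr).symm⟩
    (fun _ _ ⟨a, h, e⟩ ⟨b, h', e'⟩ => ⟨_, hm _ _ h h', by rw [map_mul, ← e, ← e']; rfl⟩)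
    (fun _ ⟨a, h, e⟩ => ⟨_, hi _ h, by rw [map_inv, ← e]; rfl⟩) γ
  have e1 : (y⁻¹ * x).g = 1 := by rw [Mp.mul_g, Mp.inv_g, e, hγ]; exact inv_mul_cancel _
  rw [← mul_inv_cancel_left y x]
  refine hm _ _ hy ?_
  generalize y⁻¹ * x = z at e1
  rcases isPreconnected_univ.eq_one_or_eq_neg_one_of_sq_eq z.cont.continuousOn
    (fun τ _ => show z.j τ ^ 2 = 1 by rw [z.sq, e1, dn_one]) with h | h
  · rwa [show z = 1 from Mp.ext e1 (funext fun τ => h (Set.mem_univ τ))]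
  · rw [show z = ss * ss * (ss * ss) from Mp.ext (e1.trans ss_pow.1.symm)
      (funext fun τ => (h (Set.mem_univ τ)).trans (ss_pow.2 τ).symm)]
    exact hm _ _ (hm _ _ hS hS) (hm _ _ hS hS)

theorem ex_lift (γ : SL(2, ℤ)) : ∃ x : Mp, x.g = zr γ :=
  sl_ind (P := fun γ => ∃ y : Mp, y.g = zr γ) ⟨ss, rfl⟩ ⟨_, nn_one⟩ ⟨1, (map_one zr).symm⟩
    (fun _ _ ⟨a, e⟩ ⟨b, e'⟩ => ⟨a * b, by rw [map_mul, ← e, ← e']; rfl⟩)
    (fun _ ⟨a, e⟩ => ⟨a⁻¹, by rw [map_inv, ← e]; rfl⟩) γ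

variable {A B : Type}

/-- the action in weight `k / 2` -/
def sl (k : ℤ) (x : Mp) (F : ℍ → A → ℂ) : ℍ → A → ℂ := fun τ => x.j τ ^ (-k) • F (x.g • τ)

theorem sl_mul (k : ℤ) (x y : Mp) (F : ℍ → A → ℂ) : sl k (x * y) F = sl k y (sl k x F) :=
  funext fun τ => by
    simp only [sl, Mp.mul_j, Mp.mul_g, mul_smul, mul_zpow]
    rw [smul_comm]

theorem sl_one (k : ℤ) (F : ℍ → A → ℂ) : sl k 1 F = F := funext fun τ => by simp [sl]

/-- a constant matrix -/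
def mv [Fintype A] (M : Matrix B A ℂ) (F : ℍ → A → ℂ) : ℍ → B → ℂ := fun τ => M *ᵥ F τ

theorem sl_mv [Fintype A] (k : ℤ) (x : Mp) (M : Matrix B A ℂ) (F : ℍ → A → ℂ) :
    sl k x (mv M F) = mv M (sl k x F) := funext fun τ => (mulVec_smul _ _ _).symm

theorem mv_mv {C : Type} [Fintype A] [Fintype B] (M : Matrix C B ℂ) (M' : Matrix B A ℂ)
    (F : ℍ → A → ℂ) : mv M (mv M' F) = mv (M * M') F := funext fun τ => mulVec_mulVec _ _ _

theorem mv_one [Fintype A] [DecidableEq A] (F : ℍ → A → ℂ) : mv (1 : Matrix A A ℂ) F = F :=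
  funext fun τ => one_mulVec _

/-- the action on functions of a characteristic -/
def sw (x : Mp) (Θ : (Fin 2 → ℝ) → ℍ → A → ℂ) : (Fin 2 → ℝ) → ℍ → A → ℂ :=
  fun v => sl 1 x (Θ (v ᵥ* (x.g⁻¹ : SL(2, ℝ))))

theorem sw_mul (x y : Mp) (Θ : (Fin 2 → ℝ) → ℍ → A → ℂ) : sw (x * y) Θ = sw y (sw x Θ) :=
  funext fun v => by
    simp only [sw, sl_mul, vecMul_vecMul, Mp.mul_g, _root_.mul_inv_rev]
    rfl

theorem sw_one (Θ : (Fin 2 → ℝ) → ℍ → A → ℂ) : sw 1 Θ = Θ :=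
  funext fun v => by simp [sw, sl_one]

end Vale.Agent.P004Z.W
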