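import Vale.Agent.P004Z.W.Th
import Vale.Agent.P004Z.Th.Gs

/-!
# P004Z, block G1: the extension of the Weil representation to the Hecke double cosets
-/

set_option autoImplicit false
set_option linter.all false

open UpperHalfPlane hiding I
open Complex Matrix
open scoped MatrixGroups Real ComplexConjugate

noncomputable section

namespace Vale.Agent.P004Z.W

variable (N p : ℕ) [NeZero N] [Fact p.Prime]

instance : NeZero (N * p ^ 2) := ⟨mul_ne_zero (NeZero.ne N) (pow_ne_zero 2 (NeZero.ne p))⟩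

/-- a Chinese remainder lift -/
def cr (s : AA N) (x : ZMod p) : ℤ :=
  Classical.epsilon fun L : ℤ => (L : AA N) = s ∧ (L : ZMod p) = x

def io (s : AA N) (x : ZMod p) : AA (N * p ^ 2) := (p * cr N p s x : ℤ)

def EW (w : ZMod p → ℂ) : Matrix (AA N) (AA (N * p ^ 2)) ℂ :=
  of fun s y => ∑ x, if y = io N p s x then w x else 0

/-- the theta vector of level `N` seen at level `N p ^ 2` -/
def Tp : (Fin 2 → ℝ) → ℍ → AA N → ℂ := fun v => th N ((p : ℝ) • v)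

theorem sp_ne : √(p : ℝ) ≠ 0 := Real.sqrt_ne_zero'.2 (Nat.cast_pos.2 (NeZero.pos p))

/-- `τ ↦ p ^ 2 τ` -/
def aa : Mp := mm √(p : ℝ) (sp_ne p)

/-- the extension is defined at `x` -/
def Gd (x : Mp) : Prop := ∃ Y, sw x (Tp N p) = Mv Y (th (N * p ^ 2))

def Ym (x : Mp) : Matrix (AA N) (AA (N * p ^ 2)) ℂ :=
  Classical.epsilon fun Y => sw x (Tp N p) = Mv Y (th (N * p ^ 2))

/-- the extension -/
def Ps (σ : ℂ →+* ℂ) (x : Mp) : Matrix (AA N) (AA N) ℂ := (Ym N p x * (EW N p 1)ᵀ).map σ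

/-- the quadratic Gauss sums -/
def sq2 (z : ZMod p) : ℂ := ∑ x : ZMod p, ZMod.stdAddChar (z * x ^ 2)

variable {N p}

theorem sp_sq : √(p : ℝ) ^ 2 = p := Real.sq_sqrt (Nat.cast_nonneg p)

theorem sp_c : ((√(p : ℝ) : ℝ) : ℂ) ^ 2 = p := by rw [← ofReal_pow, sp_sq, ofReal_natCast]

theorem p_ne : (p : ℂ) ≠ 0 := Nat.cast_ne_zero.2 (NeZero.ne p)

@[simp] theorem aa00 : (aa p).g 0 0 = p := sp_sq
@[simp] theorem aa01 : (aa p).g 0 1 = 0 := rfl
@[simp] theorem aa10 : (aa p).g 1 0 = 0 := rfl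
@[simp] theorem aa11 : (aa p).g 1 1 = (p : ℝ)⁻¹ := congrArg _ sp_sq
@[simp] theorem ai00 : (aa p).g⁻¹ 0 0 = (p : ℝ)⁻¹ := (inv_e _).1.trans aa11
@[simp] theorem ai01 : (aa p).g⁻¹ 0 1 = 0 := (inv_e _).2.1.trans neg_zero
@[simp] theorem ai10 : (aa p).g⁻¹ 1 0 = 0 := (inv_e _).2.2.1.trans neg_zero
@[simp] theorem ai11 : (aa p).g⁻¹ 1 1 = p := (inv_e _).2.2.2.trans aa00
theorem aa_j (τ : ℍ) : (aa p).j τ = ((√(p : ℝ) : ℝ) : ℂ)⁻¹ := rfl
theorem ai_j (τ : ℍ) : (aa p)⁻¹.j τ = ((√(p : ℝ) : ℝ) : ℂ) := inv_inv _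

theorem aa_sm (τ : ℍ) : (((aa p).g • τ : ℍ) : ℂ) = p ^ 2 * τ := by
  rw [coe_sm, dn]
  simp
  ring

theorem ai_sm (τ : ℍ) : (((aa p).g⁻¹ • τ : ℍ) : ℂ) = τ / p ^ 2 := by
  rw [eq_div_iff (pow_ne_zero 2 p_ne), mul_comm, ← aa_sm, smul_inv_smul]

theorem aa_nn (t : ℝ) : aa p * nn t = nn (p ^ 2 * t) * aa p :=
  Mp.ext (sl_ext (by simp) (by
    have : (p : ℝ) ≠ 0 := Nat.cast_ne_zero.2 (NeZero.ne p)
    simp
    field_simp) (by simp) (by simp)) (funext fun _ => mul_comm _ _)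

theorem EW_mv (w : ZMod p → ℂ) (F : AA (N * p ^ 2) → ℂ) (s : AA N) :
    (EW N p w *ᵥ F) s = ∑ x, w x * F (io N p s x) := by
  simp only [EW, mulVec, dotProduct, of_apply, Finset.sum_mul]
  rw [Finset.sum_comm]
  simp

theorem mul_ET (Y : Matrix (AA N) (AA (N * p ^ 2)) ℂ) (r s : AA N) :
    (Y * (EW N p 1)ᵀ) r s = ∑ x, Y r (io N p s x) := by
  simpa [mulVec, dotProduct, mul_apply, mul_comm] using EW_mv 1 (Y r) s

theorem sw_Tp (x : Mp) (v : Fin 2 → ℝ) : sw x (Tp N p) v = sw x (th N) ((p : ℝ) • v) := by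
  rw [sw, sw, Tp, smul_vecMul]

theorem Ym_eq {x : Mp} {Y : Matrix (AA N) (AA (N * p ^ 2)) ℂ}
    (h : sw x (Tp N p) = Mv Y (th (N * p ^ 2))) : Ym N p x = Y :=
  Mv_inj ((Classical.epsilon_spec (p := fun Y => sw x (Tp N p) = Mv Y (th (N * p ^ 2)))
    ⟨Y, h⟩).symm.trans h)

theorem tp_a : sw (aa p) (Tp N p) = Mv (of fun (r : AA N) (y : AA (N * p ^ 2)) =>
    if y = (p * (p * r.val) : ℤ) then ((√(p : ℝ) : ℝ) : ℂ) else 0) (th (N * p ^ 2)) := by
  funext v τ r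
  have p0 : (p : ℤ) ≠ 0 := Nat.cast_ne_zero.2 (NeZero.ne p)
  have inj : Function.Injective fun n : ℤ => p * (p * n) := fun a b h =>
    mul_left_cancel₀ p0 (mul_left_cancel₀ p0 h)
  simp only [sw, sl, Tp, Mv, mv, mulVec, dotProduct, of_apply, ite_mul, zero_mul,
    Finset.sum_ite_eq', Finset.mem_univ, if_true, aa_j, Pi.smul_apply, smul_eq_mul,
    _root_.zpow_neg_one, inv_inv]
  congr 1
  refine (hasSum_th _ _ r).unique (hs_cg ((inj.hasSum_iff (fun y hy => if_neg fun e => hy ?_)).2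
    (hasSum_th v τ _)) fun y => if_congr ?_ ?_ rfl)
  · obtain ⟨c, hc⟩ := (ZMod.intCast_eq_intCast_iff_dvd_sub _ _ _).1 e
    exact ⟨r.val - 2 * N * c, by push_cast at hc ⊢; linear_combination hc⟩
  · conv_lhs => rw [← ZMod.natCast_zmod_val r, ← Int.cast_natCast]
    rw [ZMod.intCast_eq_intCast_iff_dvd_sub, ZMod.intCast_eq_intCast_iff_dvd_sub,
      ← mul_dvd_mul_iff_left (mul_ne_zero p0 p0)]
    exact iff_of_eq (by congr 1 <;> push_cast <;> ring)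
  · have := N_ne (N := N)
    have := p_ne (p := p)
    rw [tt, tt, Pi.smul_apply, Pi.smul_apply, vm0, vm1, aa_sm]
    congr 1
    simp
    field_simp

theorem dv2 : 2 * N ∣ 2 * (N * p ^ 2) := mul_dvd_mul_left 2 (dvd_mul_right _ _)

theorem tp_ai : sw (aa p)⁻¹ (Tp N p) = Mv (of fun (r : AA N) y =>
    if ZMod.castHom dv2 (AA N) y = r then ((√(p : ℝ) : ℝ) : ℂ)⁻¹ else 0) (th (N * p ^ 2)) := by
  funext v τ r
  simp only [sw, sl, Tp, ai_j, Pi.smul_apply, smul_eq_mul, _root_.zpow_neg_one]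
  refine ((hasSum_th _ _ r).mul_left _).unique (hs_cg (hasSum_dot _ v τ) fun y => ?_)
  rw [of_apply, map_intCast, ite_mul, mul_ite, zero_mul, mul_zero]
  have := N_ne (N := N)
  have := p_ne (p := p)
  rw [tt, tt, Pi.smul_apply, Pi.smul_apply, vm0, vm1, Mp.inv_g, ai_sm]
  congr 3
  simp
  field_simp

variable (hp : IsCoprime (p : ℤ) (2 * N))
include hp

theorem cr_spec (s : AA N) (x : ZMod p) : (cr N p s x : AA N) = s ∧ (cr N p s x : ZMod p) = x := by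
  obtain ⟨a, b, h⟩ := hp
  obtain ⟨s, rfl⟩ := ZMod.intCast_surjective s
  obtain ⟨x, rfl⟩ := ZMod.intCast_surjective x
  refine Classical.epsilon_spec (p := fun L : ℤ => (L : AA N) = s ∧ (L : ZMod p) = x)
    ⟨a * p * s + b * (2 * N) * x, ?_, ?_⟩ <;> rw [ZMod.intCast_eq_intCast_iff_dvd_sub]
  · exact ⟨b * (s - x), by push_cast; linear_combination -s * h⟩
  · exact ⟨a * (x - s), by linear_combination -x * h⟩

theorem io_iff (s : AA N) (x : ZMod p) (y : ℤ) : ((p * y : ℤ) : AA (N * p ^ 2)) = io N p s x ↔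
    (y : AA N) = s ∧ (y : ZMod p) = x := by
  conv_rhs => rw [← (cr_spec hp s x).1]; right; rw [← (cr_spec hp s x).2]
  simp only [io, ZMod.intCast_eq_intCast_iff_dvd_sub]
  rw [← mul_sub, show ((2 * (N * p ^ 2) : ℕ) : ℤ) = p * (2 * N * p) by push_cast; ring,
    mul_dvd_mul_iff_left (Nat.cast_ne_zero.2 (NeZero.ne p))]
  exact ⟨fun h => ⟨by exact_mod_cast dvd_of_mul_right_dvd h, dvd_of_mul_left_dvd h⟩,
    fun h => hp.symm.mul_dvd (by exact_mod_cast h.1) h.2⟩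

theorem hasSum_EW (w : ZMod p → ℂ) (v : Fin 2 → ℝ) (τ : ℍ) (s : AA N) :
    HasSum (fun y : ℤ => if (y : AA N) = s then w y * tt N y ((p : ℝ) • v) τ else 0)
      ((EW N p w *ᵥ th (N * p ^ 2) v τ) s) := by
  have inj : Function.Injective fun n : ℤ => p * n :=
    mul_right_injective₀ (Nat.cast_ne_zero.2 (NeZero.ne p))
  rw [EW_mv]
  refine hs_cg (hasSum_sum fun x _ => ((inj.hasSum_iff (fun y hy => if_neg fun e => hy ?_)).2
    (hasSum_th v τ (io N p s x))).mul_left (w x)) fun y => ?_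
  · obtain ⟨c, hc⟩ := (ZMod.intCast_eq_intCast_iff_dvd_sub _ _ _).1 e
    exact ⟨cr N p s x - 2 * N * p * c, by push_cast at hc ⊢; linear_combination hc⟩
  · have : tt (N * p ^ 2) (p * y) v τ = tt N y ((p : ℝ) • v) τ := by
      have := N_ne (N := N)
      have := p_ne (p := p)
      rw [tt, tt]
      congr 1
      simp
      field_simp
    simp only [Function.comp, io_iff hp, this, ite_and]
    split_ifs <;> simp

theorem tp_n (z : ℤ) : sw (nn (4 * N * z / p)) (Tp N p) =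
    Mv (EW N p fun x => ZMod.stdAddChar ((z : ZMod p) * x ^ 2)) (th (N * p ^ 2)) := by
  funext v τ r
  rw [sw_Tp]
  simp only [sw, sl, nn_j, _root_.one_zpow, one_smul]
  refine (hasSum_th _ _ r).unique (hs_cg (hasSum_EW hp _ v τ r) fun y => if_congr Iff.rfl ?_ rfl)
  have := N_ne (N := N)
  have h := Gq.ee_std p (z * y ^ 2)
  push_cast at h
  rw [tt_nn, ← h]
  congr 1
  refine congrArg ee ?_
  push_cast
  field_simp

theorem tp_eq : Tp N p = Mv (EW N p 1) (th (N * p ^ 2)) := by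
  have := tp_n hp 0
  simp only [Int.cast_zero, mul_zero, zero_div, nn_zero, sw_one, zero_mul,
    AddChar.map_zero_eq_one] at this
  exact this

theorem tp_g {γ : Mp} (h : γ ∈ Gm) : sw γ (Tp N p) = Mv (Rm N γ) (Tp N p) :=
  funext fun v => by rw [sw_Tp, gd h]; rfl

theorem E_comm {γ : Mp} (h : γ ∈ Gm) :
    Rm (N * p ^ 2) γ * (EW N p 1)ᵀ = (EW N p 1)ᵀ * Rm N γ := by
  have k : ∀ (m : ℕ) [NeZero m], Rm m γ⁻¹ = (Rm m γ)ᴴ := fun m _ =>
    Rs_un (σ := RingHom.id ℂ) isCoprime_one_left (fun a => by simp) h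
  have h1 := tp_g hp (inv_mem h)
  rw [tp_eq hp, sw_Mv, gd (inv_mem h), Mv_Mv, Mv_Mv, k, k] at h1
  have h2 := congrArg conjTranspose (Mv_inj h1)
  simp only [conjTranspose_mul, conjTranspose_conjTranspose] at h2
  rwa [show (EW N p 1)ᴴ = (EW N p 1)ᵀ by
    ext y s; simp [EW, apply_ite (star : ℂ → ℂ)]] at h2

theorem Gd.sw {x γ γ' : Mp} (hx : Gd N p x) (h : γ ∈ Gm) (h' : γ' ∈ Gm) :
    W.sw (γ * x * γ') (Tp N p) =
      Mv (Rm N γ * Ym N p x * Rm (N * p ^ 2) γ') (th (N * p ^ 2)) := by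
  obtain ⟨Y, e⟩ := hx
  rw [sw_mul, sw_mul, tp_g hp h, sw_Mv, e, Ym_eq e, Mv_Mv, sw_Mv, gd h', Mv_Mv]

variable (σ : ℂ →+* ℂ)

theorem Ps_mul {x γ γ' : Mp} (hx : Gd N p x) (h : γ ∈ Gm) (h' : γ' ∈ Gm) :
    Ps N p σ (γ * x * γ') = Rs N σ γ * Ps N p σ x * Rs N σ γ' := by
  rw [Ps, Ym_eq (hx.sw hp h h'), Matrix.mul_assoc, E_comm hp h', ← Matrix.mul_assoc,
    Matrix.mul_assoc (Rm N γ), Matrix.map_mul, Matrix.map_mul, Rs, Rs, Ps]

theorem Ps_a (r s : AA N) :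
    Ps N p σ (aa p) r s = if p * r = s then σ (√(p : ℝ) : ℝ) else 0 := by
  rw [Ps, map_apply, mul_ET, Ym_eq tp_a]
  simp only [of_apply, eq_comm (a := io N p s _), io_iff hp, ite_and]
  split_ifs <;> simp_all

theorem Ps_ai (r s : AA N) :
    Ps N p σ (aa p)⁻¹ r s = if p * s = r then σ (√(p : ℝ) : ℝ) else 0 := by
  rw [Ps, map_apply, mul_ET, Ym_eq tp_ai]
  simp only [of_apply, io, map_intCast]
  simp only [Int.cast_mul, Int.cast_natCast, (cr_spec hp _ _).1]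
  split_ifs
  · rw [Finset.sum_const, Finset.card_univ, ZMod.card, nsmul_eq_mul, ← sp_c, sq,
      mul_inv_cancel_right₀ (ofReal_ne_zero.2 (sp_ne p))]
  · simp

theorem Ps_n (z : ℤ) : Ps N p σ (nn (4 * N * z / p)) = σ (sq2 p z) • 1 := by
  ext r s
  rw [Ps, map_apply, mul_ET, Ym_eq (tp_n hp z)]
  have : ∀ x y, io N p s x = io N p r y ↔ r = s ∧ x = y := fun x y => by
    rw [io, io_iff hp, (cr_spec hp _ _).1, (cr_spec hp _ _).2, eq_comm]
  simp only [EW, of_apply, this, ite_and, Matrix.smul_apply, one_apply, sq2]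
  split_ifs <;> simp

end Vale.Agent.P004Z.W
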